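import Vale.Agent.P014F.Sel
import Vale.Agent.P014B.Iface

/-!
# The algebraic side of the two-part of the formula for the twists of `17a2`
-/

namespace Vale.Agent.P014F

open Vale.Agent.P014 Vale.Agent.P014B

/-- the second family, counted among natural numbers -/
theorem fam_iff (n : ℕ) : Fam n ↔ (n.primeFactors.filter fun p => p % 4 = 3).card = 1 ∨
    (n.primeFactors.filter fun p : ℕ => jacobiSym p 17 = -1).card = 1 := by
  unfold Fam
  refine or_congr_right (Eq.congr_left ?_)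
  rw [← Finset.card_image_of_injective (n.primeFactors.filter fun p : ℕ => jacobiSym p 17 = -1)
    (Nat.cast_injective (R := ℤ))]
  congr 1
  ext x
  simp only [Finset.mem_filter, Finset.mem_image, Finset.bind_def, Finset.pure_def,
    Finset.sup_eq_biUnion, Finset.mem_biUnion, Finset.mem_singleton]
  constructor
  · rintro ⟨⟨a, h, rfl⟩, e⟩
    exact ⟨a, ⟨h, e⟩, rfl⟩
  · rintro ⟨a, ⟨h, e⟩, rfl⟩
    exact ⟨⟨a, h, rfl⟩, e⟩

theorem alg : AlgStmt := by
  intro K _ _ n q k hk hJ hF hcl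
  have hn : n % 4 = 3 := by omega
  have h17 : ¬ 17 ∣ n := by
    rintro ⟨c, rfl⟩
    rw [Nat.cast_mul, jacobiSym.mul_left, show jacobiSym ((17 : ℕ) : ℤ) 17 = 0 by norm_num] at hJ
    simp at hJ
  have hk' : (4 * k + 1).natAbs = n := by omega
  have S := spl_tw k
  have hS : SelTriv (-((4 * k + 1 : ℤ) : ℚ) - -5 * ((4 * k + 1 : ℤ) : ℚ) / 4)
      (3 * ((4 * k + 1 : ℤ) : ℚ) - -5 * ((4 * k + 1 : ℤ) : ℚ) / 4) := by
    convert sel_triv q hn hJ ((fam_iff n).1 hF) hcl using 1 <;> rw [hk] <;> push_cast <;> ring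
  have hf := finite_pts S hS
  refine ⟨minimal_tw (Int.squarefree_natAbs.1 (hk' ▸ q.hd)) (by omega), hf, card_shaPrimary S hS,
    tam_tw hk' q.hd h17, val_torsion S (no_four ?_)⟩
  exact_mod_cast (show 4 * k + 1 < 0 by omega)

end Vale.Agent.P014F
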