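import Mathlib

/-!
# Weierstrass curves with split two-torsion: the chart `η² = (x - r₁)(x - r₂)(x - r₃)`
-/

namespace Vale.Agent.P014F

open WeierstrassCurve

variable {F : Type*} [Field F]

/-- the two-division cubic of `W` has the three distinct roots `r₁, r₂, r₃` -/
structure Spl (W : WeierstrassCurve F) (r₁ r₂ r₃ : F) : Prop where
  h2 : W.a₁ ^ 2 + 4 * W.a₂ = -4 * (r₁ + r₂ + r₃)
  h4 : 2 * W.a₄ + W.a₁ * W.a₃ = 2 * (r₁ * r₂ + r₁ * r₃ + r₂ * r₃)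
  h6 : W.a₃ ^ 2 + 4 * W.a₆ = -4 * (r₁ * r₂ * r₃)
  n12 : r₁ ≠ r₂
  n13 : r₁ ≠ r₃
  n23 : r₂ ≠ r₃

/-- the second coordinate in terms of `η = y + (a₁ x + a₃) / 2` -/
def yc (W : WeierstrassCurve F) (x η : F) : F := η - (W.a₁ * x + W.a₃) / 2

open scoped Classical in
/-- the point with coordinates `x`, `η` -/
noncomputable def pt (W : WeierstrassCurve F) (x η : F) : W.toAffine.Point :=
  if h : W.toAffine.Nonsingular x (yc W x η) then .some _ _ h else 0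

variable {W : WeierstrassCurve F} {r₁ r₂ r₃ : F}

theorem Spl.swap12 (S : Spl W r₁ r₂ r₃) : Spl W r₂ r₁ r₃ :=
  ⟨by rw [S.h2]; ring, by rw [S.h4]; ring, by rw [S.h6]; ring, S.n12.symm, S.n23, S.n13⟩

theorem Spl.swap13 (S : Spl W r₁ r₂ r₃) : Spl W r₃ r₂ r₁ :=
  ⟨by rw [S.h2]; ring, by rw [S.h4]; ring, by rw [S.h6]; ring, S.n23.symm, S.n13.symm, S.n12.symm⟩

variable [CharZero F]

theorem Spl.eqn (S : Spl W r₁ r₂ r₃) (x η : F) :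
    W.toAffine.Equation x (yc W x η) ↔ η ^ 2 = (x - r₁) * (x - r₂) * (x - r₃) := by
  rw [Affine.equation_iff]
  unfold yc
  constructor
  · intro h
    linear_combination h + x ^ 2 / 4 * S.h2 + x / 2 * S.h4 + 1 / 4 * S.h6
  · intro h
    linear_combination h - x ^ 2 / 4 * S.h2 - x / 2 * S.h4 - 1 / 4 * S.h6

theorem Spl.ns (S : Spl W r₁ r₂ r₃) {x η : F} (h : η ^ 2 = (x - r₁) * (x - r₂) * (x - r₃)) :
    W.toAffine.Nonsingular x (yc W x η) := by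
  rw [Affine.nonsingular_iff']
  refine ⟨(S.eqn x η).2 h, ?_⟩
  by_contra hc
  push Not at hc
  obtain ⟨h1, h2⟩ := hc
  unfold yc at h1 h2
  have e0 : η = 0 := by linear_combination h2 / 2
  have e1 : (x - r₁) * (x - r₂) + (x - r₁) * (x - r₃) + (x - r₂) * (x - r₃) = 0 := by
    linear_combination -h1 + e0 * W.toAffine.a₁ - x / 2 * S.h2 - 1 / 2 * S.h4
  rw [e0] at h
  have h' : (x - r₁) * (x - r₂) * (x - r₃) = 0 := by linear_combination -h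
  have n12 := sub_ne_zero.2 S.n12
  have n13 := sub_ne_zero.2 S.n13
  have n23 := sub_ne_zero.2 S.n23
  rcases mul_eq_zero.1 h' with h' | h'
  · rcases mul_eq_zero.1 h' with h' | h'
    · obtain rfl := sub_eq_zero.1 h'
      exact mul_ne_zero n12 n13 (by linear_combination e1)
    · obtain rfl := sub_eq_zero.1 h'
      exact mul_ne_zero n12 n23 (by linear_combination -e1)
  · obtain rfl := sub_eq_zero.1 h'
    exact mul_ne_zero n13 n23 (by linear_combination e1)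

theorem Spl.pt_eq (S : Spl W r₁ r₂ r₃) {x η : F} (h : η ^ 2 = (x - r₁) * (x - r₂) * (x - r₃)) :
    pt W x η = .some _ _ (S.ns h) := dif_pos (S.ns h)

theorem Spl.pt_ne (S : Spl W r₁ r₂ r₃) {x η : F} (h : η ^ 2 = (x - r₁) * (x - r₂) * (x - r₃)) :
    pt W x η ≠ 0 := by
  rw [S.pt_eq h]
  exact Affine.Point.some_ne_zero _

theorem Spl.pt_inj (S : Spl W r₁ r₂ r₃) {x η x' η' : F}
    (h : η ^ 2 = (x - r₁) * (x - r₂) * (x - r₃)) (h' : η' ^ 2 = (x' - r₁) * (x' - r₂) * (x' - r₃))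
    (e : pt W x η = pt W x' η') : x = x' ∧ η = η' := by
  rw [S.pt_eq h, S.pt_eq h', Affine.Point.some.injEq] at e
  obtain ⟨rfl, e⟩ := e
  unfold yc at e
  exact ⟨rfl, by linear_combination e⟩

theorem some_eq_pt {x y : F} (h : W.toAffine.Nonsingular x y) :
    Affine.Point.some x y h = pt W x (y + (W.a₁ * x + W.a₃) / 2) := by
  have e : yc W x (y + (W.a₁ * x + W.a₃) / 2) = y := by unfold yc; ring
  have h' : W.toAffine.Nonsingular x (yc W x (y + (W.a₁ * x + W.a₃) / 2)) := by rwa [e]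
  rw [pt, dif_pos h', Affine.Point.some.injEq]
  exact ⟨rfl, e.symm⟩

theorem Spl.cases (S : Spl W r₁ r₂ r₃) (P : W.toAffine.Point) :
    P = 0 ∨ ∃ x η, η ^ 2 = (x - r₁) * (x - r₂) * (x - r₃) ∧ P = pt W x η := by
  rcases P with _ | ⟨x, y, h⟩
  · exact .inl rfl
  · refine .inr ⟨x, _, ?_, some_eq_pt h⟩
    rw [← S.eqn]
    have e : yc W x (y + (W.a₁ * x + W.a₃) / 2) = y := by unfold yc; ring
    rw [e]
    exact h.1

theorem Spl.neg_pt (S : Spl W r₁ r₂ r₃) {x η : F} (h : η ^ 2 = (x - r₁) * (x - r₂) * (x - r₃)) :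
    -pt W x η = pt W x (-η) := by
  rw [S.pt_eq h, S.pt_eq (η := -η) (by rw [← h]; ring), Affine.Point.neg_some,
    Affine.Point.some.injEq]
  refine ⟨rfl, ?_⟩
  unfold Affine.negY yc
  change _ - W.a₁ * x - W.a₃ = _
  ring

variable [DecidableEq F]

theorem Spl.add_neg_pt (S : Spl W r₁ r₂ r₃) {x η : F}
    (h : η ^ 2 = (x - r₁) * (x - r₂) * (x - r₃)) : pt W x η + pt W x (-η) = 0 := by
  rw [← S.neg_pt h, add_neg_cancel]

/-- the chord and tangent rule -/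
theorem Spl.add_pt (S : Spl W r₁ r₂ r₃) {x₁ η₁ x₂ η₂ m : F}
    (h₁ : η₁ ^ 2 = (x₁ - r₁) * (x₁ - r₂) * (x₁ - r₃))
    (h₂ : η₂ ^ 2 = (x₂ - r₁) * (x₂ - r₂) * (x₂ - r₃))
    (hm : (x₁ ≠ x₂ ∧ m * (x₁ - x₂) = η₁ - η₂) ∨ (x₁ = x₂ ∧ η₁ = η₂ ∧ η₁ ≠ 0 ∧
      2 * η₁ * m = (x₁ - r₁) * (x₁ - r₂) + (x₁ - r₁) * (x₁ - r₃) + (x₁ - r₂) * (x₁ - r₃)))
    {x₃ η₃ : F} (hx : x₃ = m ^ 2 + (r₁ + r₂ + r₃) - x₁ - x₂) (hη : η₃ = -(m * (x₃ - x₁) + η₁)) :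
    η₃ ^ 2 = (x₃ - r₁) * (x₃ - r₂) * (x₃ - r₃) ∧ pt W x₁ η₁ + pt W x₂ η₂ = pt W x₃ η₃ := by
  have hxy : ¬(x₁ = x₂ ∧ yc W x₁ η₁ = W.toAffine.negY x₂ (yc W x₂ η₂)) := by
    rintro ⟨rfl, e⟩
    rcases hm with hm | ⟨-, rfl, h0, -⟩
    · exact hm.1 rfl
    · unfold Affine.negY yc at e
      change _ = _ - W.a₁ * x₁ - W.a₃ at e
      exact h0 (by linear_combination e / 2)
  have hs : W.toAffine.slope x₁ x₂ (yc W x₁ η₁) (yc W x₂ η₂) = m - W.a₁ / 2 := by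
    rcases hm with ⟨hne, hm⟩ | ⟨rfl, rfl, h0, hm⟩
    · rw [Affine.slope_of_X_ne hne, div_eq_iff (sub_ne_zero.2 hne)]
      unfold yc
      linear_combination -hm
    · rw [Affine.slope_of_Y_ne rfl fun e => hxy ⟨rfl, e⟩, div_eq_iff
        (sub_ne_zero.2 fun e => hxy ⟨rfl, e⟩)]
      unfold Affine.negY yc
      change 3 * x₁ ^ 2 + 2 * W.a₂ * x₁ + W.a₄ - W.a₁ * _ = _ * (_ - (_ - W.a₁ * x₁ - W.a₃))
      linear_combination -hm + x₁ / 2 * S.h2 + 1 / 2 * S.h4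
  have hX : W.toAffine.addX x₁ x₂ (W.toAffine.slope x₁ x₂ (yc W x₁ η₁) (yc W x₂ η₂)) = x₃ := by
    rw [hs, hx]
    unfold Affine.addX
    change _ + W.a₁ * _ - W.a₂ - _ - _ = _
    linear_combination -1 / 4 * S.h2
  have hY : W.toAffine.addY x₁ x₂ (yc W x₁ η₁)
      (W.toAffine.slope x₁ x₂ (yc W x₁ η₁) (yc W x₂ η₂)) = yc W x₃ η₃ := by
    unfold Affine.addY Affine.negAddY Affine.negY
    rw [hX, hs, hη]
    unfold yc
    change _ - W.a₁ * x₃ - W.a₃ = _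
    ring
  have hn := Affine.nonsingular_add (S.ns h₁) (S.ns h₂) hxy
  rw [hX, hY] at hn
  have h₃ := (S.eqn _ _).1 hn.1
  refine ⟨h₃, ?_⟩
  rw [S.pt_eq h₁, S.pt_eq h₂, S.pt_eq h₃, Affine.Point.add_some hxy, Affine.Point.some.injEq]
  exact ⟨hX, hY⟩

omit [DecidableEq F] in
/-- two affine points with an affine sum lie on a line -/
theorem exists_slope {x₁ η₁ x₂ η₂ : F}
    (h₁ : η₁ ^ 2 = (x₁ - r₁) * (x₁ - r₂) * (x₁ - r₃))
    (h₂ : η₂ ^ 2 = (x₂ - r₁) * (x₂ - r₂) * (x₂ - r₃)) :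
    (x₁ = x₂ ∧ η₂ = -η₁) ∨ ∃ m,
      (x₁ ≠ x₂ ∧ m * (x₁ - x₂) = η₁ - η₂) ∨ (x₁ = x₂ ∧ η₁ = η₂ ∧ η₁ ≠ 0 ∧
      2 * η₁ * m = (x₁ - r₁) * (x₁ - r₂) + (x₁ - r₁) * (x₁ - r₃) + (x₁ - r₂) * (x₁ - r₃)) := by
  by_cases hx : x₁ = x₂
  · subst hx
    by_cases hη : η₂ = -η₁
    · exact .inl ⟨rfl, hη⟩
    have e : (η₁ - η₂) * (η₂ + η₁) = 0 := by linear_combination h₁ - h₂
    have e' : η₁ = η₂ :=
      sub_eq_zero.1 ((mul_eq_zero.1 e).resolve_right fun h => hη (eq_neg_of_add_eq_zero_left h))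
    subst e'
    have h0 : η₁ ≠ 0 := fun h => hη (by rw [h, neg_zero])
    exact .inr ⟨_ / (2 * η₁), .inr ⟨rfl, rfl, h0, mul_div_cancel₀ _ (mul_ne_zero two_ne_zero h0)⟩⟩
  · exact .inr ⟨(η₁ - η₂) / (x₁ - x₂), .inl ⟨hx, div_mul_cancel₀ _ (sub_ne_zero.2 hx)⟩⟩

end Vale.Agent.P014F
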