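import Vale.Agent.P014F.Gal

/-!
# Locally trivial cocycles with values in the two-torsion
-/

namespace Vale.Agent.P014F

open WeierstrassCurve Vale.Agent.P014
open scoped Classical

attribute [local instance] galQb

variable {E : WeierstrassCurve ℚ} {r₁ r₂ r₃ : ℚ}

/-- the two-covering attached to `b₁`, `b₂` has a point over `K` -/
def Sol (K : Type) [Field K] (b₁ b₂ : ℤ) (d₂ d₃ : K) : Prop :=
  ∃ z₀ z₁ z₂ z₃ : K, ¬(z₀ = 0 ∧ z₁ = 0 ∧ z₂ = 0 ∧ z₃ = 0) ∧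
    b₁ * z₁ ^ 2 - b₂ * z₂ ^ 2 = d₂ * z₀ ^ 2 ∧ b₁ * z₁ ^ 2 - b₁ * b₂ * z₃ ^ 2 = d₃ * z₀ ^ 2

/-- the two-torsion points over the algebraic closure -/
noncomputable abbrev torb (E : WeierstrassCurve ℚ) (r₁ r₂ r₃ : ℚ) (ε δ : ℤˣ) : Pbar E :=
  tor (E⁄Qb) (algebraMap ℚ Qb r₁) (algebraMap ℚ Qb r₂) (algebraMap ℚ Qb r₃) ε δ

theorem act_torb (σ : GQ) (ε δ : ℤˣ) : act E σ (torb E r₁ r₂ r₃ ε δ) = torb E r₁ r₂ r₃ ε δ :=
  map_tor _ ε δ

theorem ne_of_sq {F : Type*} [Field F] [CharZero F] {b : ℤ} (hb : Squarefree b) {β : F}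
    (h : β ^ 2 = b) : β ≠ 0 := by
  rintro rfl
  have : (b : F) = 0 := by rw [← h]; simp
  exact hb.ne_zero (by exact_mod_cast this)

theorem sol_aux (S : Spl E r₁ r₂ r₃) (K L : Type) [Field K] [Field L] [Algebra ℚ K] [Algebra ℚ L]
    [Algebra K L] [IsScalarTower ℚ K L] [IsGalois K L] {b₁ b₂ : ℤ} (s₁ : Squarefree b₁)
    (s₂ : Squarefree b₂) {β₁ β₂ : L} (p₁ : β₁ ^ 2 = b₁) (p₂ : β₂ ^ 2 = b₂)
    (R : (E⁄L).toAffine.Point)
    (key : ∀ τ : L ≃ₐ[K] L, ∃ e d : ℤˣ, τ β₁ = (e : ℤ) * β₁ ∧ τ β₂ = (d : ℤ) * β₂ ∧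
      Affine.Point.map (W' := E) (τ : L →ₐ[K] L) R = R +
        tor (E⁄L) (algebraMap ℚ L r₁) (algebraMap ℚ L r₂) (algebraMap ℚ L r₃) e d) :
    Sol K b₁ b₂ (algebraMap ℚ K (r₂ - r₁)) (algebraMap ℚ K (r₃ - r₁)) := by
  have S' := S.bc L
  have : CharZero L := algebraRat.charZero L
  have n₁ : β₁ ≠ 0 := ne_of_sq s₁ p₁
  have n₂ : β₂ ≠ 0 := ne_of_sq s₂ p₂
  have fx (x : L) (hx : ∀ τ : L ≃ₐ[K] L, τ x = x) : ∃ t, algebraMap K L t = x :=
    (InfiniteGalois.mem_range_algebraMap_iff_fixed x).2 hx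
  have inj := (algebraMap K L).injective
  have cm (r : ℚ) : algebraMap K L (algebraMap ℚ K r) = algebraMap ℚ L r :=
    (IsScalarTower.algebraMap_apply ℚ K L r).symm
  rcases S'.cases' R with ⟨e₀, d₀, rfl⟩ | ⟨u₁, u₂, u₃, hu, rfl⟩
  · have k (τ : L ≃ₐ[K] L) : τ β₁ = β₁ ∧ τ β₂ = β₂ := by
      obtain ⟨e, d, h1, h2, h3⟩ := key τ
      rw [map_tor, S'.tor_add] at h3
      obtain ⟨h4, h5⟩ := S'.tor_inj h3
      rw [left_eq_mul.1 h4] at h1
      rw [left_eq_mul.1 h5] at h2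
      exact ⟨by simpa using h1, by simpa using h2⟩
    obtain ⟨t₁, h1⟩ := fx _ fun τ => (k τ).1
    obtain ⟨t₂, h2⟩ := fx _ fun τ => (k τ).2
    have m₁ : t₁ ≠ 0 := by rintro rfl; exact n₁ (by rw [← h1, map_zero])
    have m₂ : t₂ ≠ 0 := by rintro rfl; exact n₂ (by rw [← h2, map_zero])
    have a₁ : (b₁ : K) = t₁ ^ 2 := inj (by rw [map_pow, h1, p₁, map_intCast])
    have a₂ : (b₂ : K) = t₂ ^ 2 := inj (by rw [map_pow, h2, p₂, map_intCast])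
    exact ⟨0, t₂, t₁, 1, fun h => one_ne_zero h.2.2.2, by rw [a₁, a₂]; ring, by rw [a₁, a₂]; ring⟩
  · have k (τ : L ≃ₐ[K] L) : τ (u₁ / β₁) = u₁ / β₁ ∧ τ (u₂ / β₂) = u₂ / β₂ ∧
        τ (u₃ / (β₁ * β₂)) = u₃ / (β₁ * β₂) := by
      obtain ⟨e, d, h1, h2, h3⟩ := key τ
      rw [map_hf, S'.hf_add_tor hu] at h3
      obtain ⟨h4, h5, h6⟩ := S'.hf_inj (hu.map (τ : L →ₐ[K] L)) (hu.sign e d) h3
      have ue := unit_ne (F := L) e
      have ud := unit_ne (F := L) d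
      refine ⟨?_, ?_, ?_⟩
      · rw [map_div₀, h1, show τ u₁ = _ from h4, mul_div_mul_left _ _ ue]
      · rw [map_div₀, h2, show τ u₂ = _ from h5, mul_div_mul_left _ _ ud]
      · rw [map_div₀, map_mul, h1, h2, show τ u₃ = _ from h6, mul_mul_mul_comm,
          mul_div_mul_left _ _ (mul_ne_zero ue ud)]
    obtain ⟨t₁, h1⟩ := fx _ fun τ => (k τ).1
    obtain ⟨t₂, h2⟩ := fx _ fun τ => (k τ).2.1
    obtain ⟨t₃, h3⟩ := fx _ fun τ => (k τ).2.2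
    refine ⟨1, t₁, t₂, t₃, fun h => one_ne_zero h.1, inj ?_, inj ?_⟩
    · simp only [map_sub, map_mul, map_pow, map_intCast, map_one, cm, h1, h2]
      rw [← p₁, ← p₂, ← hu.1]
      field_simp
    · simp only [map_sub, map_mul, map_pow, map_intCast, map_one, cm, h1, h3]
      rw [← p₁, ← p₂, ← hu.2]
      field_simp

theorem galK (K : Type) [Field K] [Algebra ℚ K] : IsGalois K (AlgebraicClosure K) := by
  have : CharZero K := algebraRat.charZero K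
  infer_instance

theorem sol_of_local (S : Spl E r₁ r₂ r₃) (K : Type) [Field K] [Algebra ℚ K] {ε δ : GQ → ℤˣ}
    {b₁ b₂ : ℤ} (s₁ : Squarefree b₁) (s₂ : Squarefree b₂) {β₁ β₂ : Qb} (q₁ : β₁ ^ 2 = b₁)
    (q₂ : β₂ ^ 2 = b₂) (g₁ : ∀ σ : GQ, σ β₁ = (ε σ : ℤ) * β₁)
    (g₂ : ∀ σ : GQ, σ β₂ = (δ σ : ℤ) * β₂)
    (h : LocallyTrivial E K fun σ => torb E r₁ r₂ r₃ (ε σ) (δ σ)) :
    Sol K b₁ b₂ (algebraMap ℚ K (r₂ - r₁)) (algebraMap ℚ K (r₃ - r₁)) := by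
  let ι : Qb →ₐ[ℚ] AlgebraicClosure K := IsAlgClosed.lift
  obtain ⟨R, hR⟩ := h ι
  have := galK K
  refine sol_aux S K (AlgebraicClosure K) s₁ s₂ (β₁ := ι β₁) (β₂ := ι β₂)
    (by rw [← map_pow, q₁, map_intCast]) (by rw [← map_pow, q₂, map_intCast]) R fun τ => ?_
  obtain ⟨σ, hσ⟩ := exists_res ι τ
  refine ⟨ε σ, δ σ, by rw [← hσ, g₁, map_mul, map_intCast],
    by rw [← hσ, g₂, map_mul, map_intCast], ?_⟩
  have := hR τ σ hσ
  beta_reduce at this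
  rw [torb, map_tor] at this
  rw [this]
  abel

/-- every everywhere locally soluble two-covering comes from a two-torsion point -/
def SelTriv (d₂ d₃ : ℚ) : Prop := ∀ b₁ b₂ : ℤ, Squarefree b₁ → Squarefree b₂ →
  Sol ℝ b₁ b₂ (algebraMap ℚ ℝ d₂) (algebraMap ℚ ℝ d₃) →
  (∀ (p : ℕ) [Fact p.Prime], Sol ℚ_[p] b₁ b₂ (algebraMap ℚ ℚ_[p] d₂) (algebraMap ℚ ℚ_[p] d₃)) →
    (b₁ = 1 ∧ b₂ = 1) ∨ ∃ t₁ t₂ t₃ : ℚ, b₁ * t₁ ^ 2 - b₂ * t₂ ^ 2 = d₂ ∧
      b₁ * t₁ ^ 2 - b₁ * b₂ * t₃ ^ 2 = d₃ ∧ t₁ * t₂ * t₃ = 0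

theorem sign_eq {F : Type*} [Field F] [CharZero F] {e : ℤˣ} {β : F} (h0 : β ≠ 0)
    (h : β = (e : ℤ) * β) : e = 1 := by
  rcases Int.units_eq_one_or e with rfl | rfl
  · rfl
  · exact absurd (by push_cast at h; linear_combination h / 2) h0

/-- a locally trivial cocycle killed by two is the coboundary of a point of order dividing four -/
theorem cob_of_sel (S : Spl E r₁ r₂ r₃) (hS : SelTriv (r₂ - r₁) (r₃ - r₁)) {c : GQ → Pbar E}
    (hc : c ∈ shaCocycles E) (h2 : ∀ σ, c σ + c σ = 0) :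
    ∃ (Q : Pbar E) (e d : ℤˣ), Q + Q = torb E r₁ r₂ r₃ e d ∧ ∀ σ, c σ = act E σ Q - Q := by
  have S' := S.bc Qb
  choose ε δ hε using fun σ => S'.tor_of_two (h2 σ)
  obtain ⟨c1, c2, c3, c4⟩ := hc
  have hm (σ τ : GQ) : ε (σ * τ) = ε σ * ε τ ∧ δ (σ * τ) = δ σ * δ τ := by
    have := c2 σ τ
    rw [hε, hε, hε τ, act_torb, S'.tor_add] at this
    exact S'.tor_inj this
  have hl (σ τ : GQ) (h : c σ = c τ) : ε σ = ε τ ∧ δ σ = δ τ := by
    rw [hε, hε] at h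
    exact S'.tor_inj h
  have l1 : IsLocallyConstant ε := (IsLocallyConstant.iff_eventually_eq _).2 fun σ =>
    (c1.eventually_eq σ).mono fun τ h => (hl _ _ h).1
  have l2 : IsLocallyConstant δ := (IsLocallyConstant.iff_eventually_eq _).2 fun σ =>
    (c1.eventually_eq σ).mono fun τ h => (hl _ _ h).2
  obtain ⟨b₁, β₁, s₁, q₁, g₁⟩ := kummer ε (fun σ τ => (hm σ τ).1) l1
  obtain ⟨b₂, β₂, s₂, q₂, g₂⟩ := kummer δ (fun σ τ => (hm σ τ).2) l2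
  have hc' : c = fun σ => torb E r₁ r₂ r₃ (ε σ) (δ σ) := funext hε
  rw [hc'] at c3 c4
  rcases hS b₁ b₂ s₁ s₂ (sol_of_local S ℝ s₁ s₂ q₁ q₂ g₁ g₂ c3)
    (fun p _ => sol_of_local S ℚ_[p] s₁ s₂ q₁ q₂ g₁ g₂ (c4 p)) with
    ⟨rfl, rfl⟩ | ⟨t₁, t₂, t₃, e1, e2, e3⟩
  · refine ⟨0, 1, 1, by simp [tor], fun σ => ?_⟩
    have k (β : Qb) (h : β ^ 2 = ((1 : ℤ) : Qb)) : σ β = β := by
      rcases sq_eq_one_iff.1 (h.trans Int.cast_one) with rfl | rfl <;> simp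
    have a1 : ε σ = 1 := sign_eq (ne_of_sq s₁ q₁) ((k _ q₁).symm.trans (g₁ σ))
    have a2 : δ σ = 1 := sign_eq (ne_of_sq s₂ q₂) ((k _ q₂).symm.trans (g₂ σ))
    rw [hε, a1, a2]
    simp [tor]
  · let a := algebraMap ℚ Qb
    have hu : Hy (a r₁) (a r₂) (a r₃) (β₁ * a t₁) (β₂ * a t₂) (β₁ * β₂ * a t₃) := by
      constructor
      · rw [← map_sub, ← e1, mul_pow, mul_pow, q₁, q₂]
        simp only [map_sub, map_mul, map_pow, map_intCast]
      · rw [← map_sub, ← e2, mul_pow, mul_pow, mul_pow, q₁, q₂]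
        simp only [map_sub, map_mul, map_pow, map_intCast]
    have z : β₁ * a t₁ * (β₂ * a t₂) * (β₁ * β₂ * a t₃) = 0 := by
      have := congrArg a e3
      rw [map_mul, map_mul, map_zero] at this
      linear_combination β₁ ^ 2 * β₂ ^ 2 * this
    have o := hu.on2
    rw [z] at o
    obtain ⟨e, d, h⟩ := tor_of_zero (W := E⁄Qb) o
    refine ⟨hf (E⁄Qb) (a r₁) _ _ _, e, d, by rw [S'.two_hf hu, z, h], fun σ => ?_⟩
    rw [eq_sub_iff_add_eq', hε, S'.hf_add_tor hu]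
    refine Eq.trans ?_ (map_hf (σ : Qb →ₐ[ℚ] Qb) r₁ _ _ _).symm
    have cs (t : ℚ) : σ (a t) = a t := σ.commutes t
    congr 1
    · change _ = σ _
      rw [map_mul, g₁, cs, mul_assoc]
    · change _ = σ _
      rw [map_mul, g₂, cs, mul_assoc]
    · change _ = σ _
      rw [map_mul, map_mul, g₁, g₂, cs]
      ring

theorem cob_mem (Q : Pbar E) : (fun σ => act E σ Q - Q) ∈ shaCocycles E := by
  have lt (K : Type) [Field K] [Algebra ℚ K] : LocallyTrivial E K fun σ => act E σ Q - Q := by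
    intro ι
    refine ⟨Affine.Point.map (W' := E) ι Q, fun τ σ h => ?_⟩
    rw [map_sub]
    congr 1
    rcases Q with _ | ⟨x, y, hxy⟩
    · rfl
    · change Affine.Point.some _ _ _ = Affine.Point.some _ _ _
      rw [Affine.Point.some.injEq]
      exact ⟨h x, h y⟩
  refine ⟨?_, fun σ τ => ?_, lt ℝ, fun p _ => lt ℚ_[p]⟩
  · refine IsLocallyConstant.comp (f := fun σ => act E σ Q) ?_ fun P => P - Q
    rcases Q with _ | ⟨x, y, hxy⟩
    · exact IsLocallyConstant.const 0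
    · refine (IsLocallyConstant.iff_eventually_eq _).2 fun σ => ?_
      filter_upwards [(lc_apply x).eventually_eq σ, (lc_apply y).eventually_eq σ] with τ h1 h2
      change Affine.Point.some _ _ _ = Affine.Point.some _ _ _
      rw [Affine.Point.some.injEq]
      exact ⟨h1, h2⟩
  · have : act E (σ * τ) Q = act E σ (act E τ Q) := by
      rcases Q with _ | ⟨x, y, hxy⟩ <;> rfl
    beta_reduce
    rw [this, map_sub]
    abel

/-- **The two-torsion of the Tate-Shafarevich group vanishes.** -/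
theorem sha_two (S : Spl E r₁ r₂ r₃) (hS : SelTriv (r₂ - r₁) (r₃ - r₁)) (s : Sha E)
    (h : s + s = 0) : s = 0 := by
  obtain ⟨c, rfl⟩ := QuotientAddGroup.mk_surjective s
  rw [← QuotientAddGroup.mk_add, QuotientAddGroup.eq_zero_iff, AddSubgroup.mem_addSubgroupOf] at h
  obtain ⟨P, hP⟩ := h
  obtain ⟨Q, rfl⟩ := (S.bc Qb).exists_half P
  obtain ⟨Q', -, -, -, hQ⟩ := cob_of_sel S hS (sub_mem c.2 (cob_mem Q)) fun σ => by
    have : c.1 σ + c.1 σ = _ := hP σ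
    rw [map_add] at this
    change c.1 σ - (act E σ Q - Q) + (c.1 σ - (act E σ Q - Q)) = 0
    rw [← sub_eq_zero] at this
    rw [← this]
    abel
  rw [QuotientAddGroup.eq_zero_iff, AddSubgroup.mem_addSubgroupOf]
  refine ⟨Q + Q', fun σ => ?_⟩
  have : c.1 σ - (act E σ Q - Q) = _ := hQ σ
  rw [map_add, eq_add_of_sub_eq this]
  abel

theorem card_primary {G : Type*} [AddCommGroup G] (h : ∀ s : G, s + s = 0 → s = 0) :
    Nat.card (AddCommMonoid.primaryComponent G 2) = 1 := by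
  have k (n : ℕ) : ∀ s : G, 2 ^ n • s = 0 → s = 0 := by
    induction n with
    | zero => exact fun s h => by simpa using h
    | succ n ih =>
      exact fun s hs => ih s (h _ (by rw [← add_nsmul, ← two_mul, ← pow_succ', hs]))
  rw [Nat.card_eq_one_iff_unique]
  refine ⟨⟨fun a b => ?_⟩, ⟨⟨0, zero_mem _⟩⟩⟩
  have z (a : AddCommMonoid.primaryComponent G 2) : a.1 = 0 := by
    obtain ⟨n, hn⟩ := a.2
    exact k n _ hn
  exact Subtype.ext ((z a).trans (z b).symm)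

theorem card_shaPrimary (S : Spl E r₁ r₂ r₃) (hS : SelTriv (r₂ - r₁) (r₃ - r₁)) :
    Nat.card (shaPrimary E 2) = 1 :=
  card_primary (sha_two S hS)

end Vale.Agent.P014F
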