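import Vale.Agent.P014F.Tam
import Vale.Agent.P014F.Coc

/-!
# Quadratic characters of local fields and the Kummer maps
-/

namespace Vale.Agent.P014F

open WeierstrassCurve
open scoped Classical

section General

variable {F : Type} [Field F] {W : WeierstrassCurve F} {r₁ r₂ r₃ : F} {χ : F → ZMod 2}

/-- additive on nonzero elements -/
def Ad (χ : F → ZMod 2) : Prop := ∀ a b, a ≠ 0 → b ≠ 0 → χ (a * b) = χ a + χ b

theorem two_z (a : ZMod 2) : a + a = 0 := by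
  revert a
  decide

theorem Ad.sq (h : Ad χ) {a : F} (ha : a ≠ 0) : χ (a ^ 2) = 0 := by
  rw [pow_two, h a a ha ha, two_z]

theorem Ad.one (h : Ad χ) : χ 1 = 0 := by
  simpa using h.sq one_ne_zero

theorem Ad.of_eq (h : Ad χ) {a b c : F} (ha : a ≠ 0) (e : a = b * c ^ 2) : χ a = χ b := by
  have := e ▸ ha
  rw [e, h _ _ (left_ne_zero_of_mul this) (right_ne_zero_of_mul this),
    h.sq (pow_ne_zero_iff two_ne_zero |>.1 (right_ne_zero_of_mul this)), add_zero]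

variable [CharZero F]

/-- a quadratic character composed with the Kummer map -/
noncomputable def Spl.hom (S : Spl W r₁ r₂ r₃) (h : Ad χ) : W.toAffine.Point →+ ZMod 2 :=
  AddMonoidHom.mk' (fun P => χ (al W r₁ r₂ r₃ P)) fun P Q => by
    obtain ⟨c, e⟩ := S.al_mul P Q
    have n := mul_ne_zero (mul_ne_zero (S.al_ne P) (S.al_ne Q)) (S.al_ne (P + Q))
    have := h.of_eq (b := 1) n (by rw [e, one_mul])
    rw [h _ _ (mul_ne_zero (S.al_ne P) (S.al_ne Q)) (S.al_ne _), h _ _ (S.al_ne P) (S.al_ne Q),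
      h.one] at this
    linear_combination this - two_z (χ (al W r₁ r₂ r₃ P)) - two_z (χ (al W r₁ r₂ r₃ Q))

theorem Spl.hom_ne (S : Spl W r₁ r₂ r₃) (h : Ad χ) {x η : F}
    (e : η ^ 2 = (x - r₁) * (x - r₂) * (x - r₃)) (h1 : x ≠ r₁) :
    S.hom h (pt W x η) = χ (x - r₁) := by
  change χ (al W r₁ r₂ r₃ _) = _
  rw [S.al_pt e, if_neg h1]

theorem Spl.hom_two (S : Spl W r₁ r₂ r₃) (h : Ad χ) {x η : F}
    (e : η ^ 2 = (x - r₁) * (x - r₂) * (x - r₃)) (h2 : x - r₂ ≠ 0) (h3 : x - r₃ ≠ 0) :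
    S.hom h (pt W x η) = χ (x - r₂) + χ (x - r₃) := by
  by_cases h1 : x = r₁
  · change χ (al W r₁ r₂ r₃ _) = _
    rw [S.al_pt e, if_pos h1, ← h1, h _ _ h2 h3]
  · have h1' := sub_ne_zero.2 h1
    have := h.of_eq (b := 1) (mul_ne_zero (mul_ne_zero h1' h2) h3) (by rw [← e, one_mul])
    rw [h _ _ (mul_ne_zero h1' h2) h3, h _ _ h1' h2, h.one] at this
    rw [S.hom_ne h e h1]
    linear_combination this - two_z (χ (x - r₂)) - two_z (χ (x - r₃))

/-- a point of the two-covering gives a point of the curve -/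
theorem Spl.sol_pt (S : Spl W r₁ r₂ r₃) {b₁ b₂ : ℤ} (h₁ : b₁ ≠ 0) (h₂ : b₂ ≠ 0)
    (h : Sol F b₁ b₂ (r₂ - r₁) (r₃ - r₁)) :
    ∃ P, ∀ (χ : F → ZMod 2) (hχ : Ad χ), S.hom hχ P = χ b₁ ∧ S.swap12.hom hχ P = χ b₂ := by
  obtain ⟨z₀, z₁, z₂, z₃, h0, e1, e2⟩ := h
  have n₁ : (b₁ : F) ≠ 0 := by exact_mod_cast h₁
  have n₂ : (b₂ : F) ≠ 0 := by exact_mod_cast h₂
  by_cases hz : z₀ = 0
  · subst hz
    have a1 : b₂ * z₃ ^ 2 = z₁ ^ 2 := mul_left_cancel₀ n₁ (by linear_combination -e2)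
    have a2 : b₁ * z₃ ^ 2 = z₂ ^ 2 := mul_left_cancel₀ n₂ (by linear_combination e1 - e2)
    have n₃ : z₃ ≠ 0 := by
      rintro rfl
      exact h0 ⟨rfl, pow_eq_zero_iff two_ne_zero |>.1 (by rw [← a1]; ring),
        pow_eq_zero_iff two_ne_zero |>.1 (by rw [← a2]; ring), rfl⟩
    refine ⟨0, fun χ hχ => ?_⟩
    rw [map_zero, map_zero, hχ.of_eq (b := 1) (c := z₂ / z₃) n₁ (by rw [div_pow, ← a2]; field_simp),
      hχ.of_eq (b := 1) (c := z₁ / z₃) n₂ (by rw [div_pow, ← a1]; field_simp), hχ.one]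
    exact ⟨rfl, rfl⟩
  · obtain ⟨t₁, rfl⟩ : ∃ t, z₁ = t * z₀ := ⟨z₁ / z₀, by field_simp⟩
    obtain ⟨t₂, rfl⟩ : ∃ t, z₂ = t * z₀ := ⟨z₂ / z₀, by field_simp⟩
    obtain ⟨t₃, rfl⟩ : ∃ t, z₃ = t * z₀ := ⟨z₃ / z₀, by field_simp⟩
    have a1 : r₂ = r₁ + b₁ * t₁ ^ 2 - b₂ * t₂ ^ 2 :=
      mul_right_cancel₀ (pow_ne_zero 2 hz) (by linear_combination -e1)
    have a2 : r₃ = r₁ + b₁ * t₁ ^ 2 - b₁ * b₂ * t₃ ^ 2 :=
      mul_right_cancel₀ (pow_ne_zero 2 hz) (by linear_combination -e2)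
    obtain ⟨x, hx⟩ : ∃ x, x = r₁ + b₁ * t₁ ^ 2 := ⟨_, rfl⟩
    have c1 : x - r₁ = b₁ * t₁ ^ 2 := by rw [hx]; ring
    have c2 : x - r₂ = b₂ * t₂ ^ 2 := by rw [hx, a1]; ring
    have c3 : x - r₃ = b₁ * b₂ * t₃ ^ 2 := by rw [hx, a2]; ring
    have on : (b₁ * b₂ * t₁ * t₂ * t₃) ^ 2 = (x - r₁) * (x - r₂) * (x - r₃) := by
      rw [c1, c2, c3]
      ring
    have on' : (b₁ * b₂ * t₁ * t₂ * t₃) ^ 2 = (x - r₂) * (x - r₁) * (x - r₃) := by
      rw [on]
      ring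
    refine ⟨pt W x (b₁ * b₂ * t₁ * t₂ * t₃), fun χ hχ => ⟨?_, ?_⟩⟩
    · obtain ⟨c, hc⟩ : ∃ c, al W r₁ r₂ r₃ (pt W x (b₁ * b₂ * t₁ * t₂ * t₃)) = b₁ * c ^ 2 := by
        rw [S.al_pt on]
        split_ifs with h
        · exact ⟨b₂ * t₂ * t₃, by rw [← h, c2, c3]; ring⟩
        · exact ⟨t₁, c1⟩
      exact hχ.of_eq (S.al_ne _) hc
    · obtain ⟨c, hc⟩ : ∃ c, al W r₂ r₁ r₃ (pt W x (b₁ * b₂ * t₁ * t₂ * t₃)) = b₂ * c ^ 2 := by
        rw [S.swap12.al_pt on']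
        split_ifs with h
        · exact ⟨b₁ * t₁ * t₃, by rw [← h, c1, c3]; ring⟩
        · exact ⟨t₂, c2⟩
      exact hχ.of_eq (S.swap12.al_ne _) hc

end General

theorem comb_one {G : Type*} [AddCommGroup G] (φ ψ : G →+ ZMod 2) (h : ∀ P, φ P = 0 → ψ P = 0)
    {T : G} (hT : φ T = 1) (P : G) : ψ P = φ P * ψ T := by
  have k : ∀ c : ZMod 2, c = 0 ∨ c = 1 := by decide
  rcases k (φ P) with e | e
  · rw [h P e, e, zero_mul]
  · have := h (P + T) (by rw [map_add, e, hT, two_z])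
    rw [map_add] at this
    rw [e]
    linear_combination this - two_z (ψ T)

theorem comb_two {G : Type*} [AddCommGroup G] (φ₁ φ₂ ψ : G →+ ZMod 2)
    (h : ∀ P, φ₁ P = 0 → φ₂ P = 0 → ψ P = 0) {T₁ T₂ : G} (a₁ : φ₁ T₁ = 0) (a₂ : φ₂ T₁ = 1)
    (c₁ : φ₁ T₂ = 1) (c₂ : φ₂ T₂ = 0) (P : G) : ψ P = φ₁ P * ψ T₂ + φ₂ P * ψ T₁ := by
  have k : ∀ c : ZMod 2, c = 0 ∨ c = 1 := by decide
  rcases k (φ₁ P) with e | e <;> rcases k (φ₂ P) with e' | e' <;> rw [e, e']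
  · rw [h P e e']
    ring
  · have := h (P + T₁) (by rw [map_add, e, a₁, two_z]) (by rw [map_add, e', a₂, two_z])
    rw [map_add] at this
    linear_combination this - two_z (ψ T₁)
  · have := h (P + T₂) (by rw [map_add, e, c₁, two_z]) (by rw [map_add, e', c₂, two_z])
    rw [map_add] at this
    linear_combination this - two_z (ψ T₂)
  · have := h (P + T₁ + T₂) (by rw [map_add, map_add, e, a₁, c₁, add_zero, two_z])
      (by rw [map_add, map_add, e', a₂, c₂, add_zero, two_z])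
    rw [map_add, map_add] at this
    linear_combination this - two_z (ψ T₂) - two_z (ψ T₁)

variable {p : ℕ} [Fact p.Prime]

/-- the parity of the valuation -/
noncomputable def vz (x : ℚ_[p]) : ZMod 2 := x.valuation

theorem ad_vz : Ad (vz (p := p)) := fun a b ha hb => by
  rw [vz, Padic.valuation_mul ha hb, Int.cast_add]
  rfl

theorem vz_zero {x : ℚ_[p]} : vz x = 0 ↔ 2 ∣ x.valuation := ZMod.intCast_zmod_eq_zero_iff_dvd _ 2

theorem vz_unit {x : ℚ_[p]} (h : ‖x‖ = 1) : vz x = 0 := by rw [vz, val_unit h, Int.cast_zero]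

theorem vz_congr {a b : ℚ_[p]} (ha : a ≠ 0) (h : ‖a‖ = ‖b‖) : vz a = vz b := by
  rw [vz, val_congr ha h, vz]

theorem norm_up {x : ℚ_[p]} (hx : x ≠ 0) : ‖x * (p : ℚ_[p]) ^ (-x.valuation)‖ = 1 := by
  rw [norm_mul, Padic.norm_eq_zpow_neg_valuation hx, Padic.norm_p_zpow, neg_neg, ← zpow_add₀
    (by exact_mod_cast (Fact.out : p.Prime).ne_zero), neg_add_cancel, zpow_zero]

/-- the unit part -/
noncomputable def up (x : ℚ_[p]) : ℤ_[p] := ⟨x * (p : ℚ_[p]) ^ (-x.valuation), by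
  by_cases hx : x = 0
  · simp [hx]
  · exact (norm_up hx).le⟩

theorem up_mul {a b : ℚ_[p]} (ha : a ≠ 0) (hb : b ≠ 0) : up (a * b) = up a * up b := by
  refine Subtype.ext ?_
  change a * b * _ = a * _ * (b * _)
  rw [Padic.valuation_mul ha hb, neg_add, zpow_add₀
    (by exact_mod_cast (Fact.out : p.Prime).ne_zero)]
  ring

theorem up_unit {a : ℤ_[p]} (h : ‖a‖ = 1) : up (a : ℚ_[p]) = a := by
  refine Subtype.ext ?_
  change (a : ℚ_[p]) * _ = _
  rw [val_unit h, neg_zero, zpow_zero, mul_one]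

theorem up_p : up (p : ℚ_[p]) = 1 := by
  refine Subtype.ext ?_
  change (p : ℚ_[p]) * _ = 1
  rw [Padic.valuation_p, zpow_neg_one,
    mul_inv_cancel₀ (by exact_mod_cast (Fact.out : p.Prime).ne_zero)]

/-- signs written additively -/
def tz (s : ℤ) : ZMod 2 := if s = 1 then 0 else 1

theorem tz_mul {a b : ℤ} (ha : IsUnit a) (hb : IsUnit b) : tz (a * b) = tz a + tz b := by
  rcases Int.isUnit_iff.1 ha with rfl | rfl <;> rcases Int.isUnit_iff.1 hb with rfl | rfl <;> decide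

theorem tz_zero {a : ℤ} : tz a = 0 ↔ a = 1 := by
  unfold tz
  split_ifs with h
  · simp [h]
  · simp [h]

/-- the character attached to a character of the units -/
noncomputable def psi (g : ℤ_[p] →* ℤ) (x : ℚ_[p]) : ZMod 2 := tz (g (up x))

theorem ad_psi (g : ℤ_[p] →* ℤ) : Ad (psi g) := fun a b ha hb => by
  rw [psi, up_mul ha hb, map_mul, tz_mul ((PadicInt.isUnit_iff.2 (norm_up ha)).map g)
    ((PadicInt.isUnit_iff.2 (norm_up hb)).map g)]
  rfl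

theorem psi_p (g : ℤ_[p] →* ℤ) : psi g (p : ℚ_[p]) = 0 := by
  rw [psi, up_p, map_one]
  rfl

theorem psi_int (g : ℤ_[p] →* ℤ) {z : ℤ} (h : ¬ (p : ℤ) ∣ z) : psi g (z : ℚ_[p]) = tz (g z) := by
  have : ‖(z : ℤ_[p])‖ = 1 := le_antisymm (PadicInt.norm_le_one _)
    (not_lt.1 fun e => h ((PadicInt.norm_int_lt_one_iff_dvd z).1 e))
  rw [psi, ← up_unit this, PadicInt.coe_intCast, ← PadicInt.coe_intCast, up_unit this]

theorem psi_add (g : ℤ_[p] →* ℤ) {x t : ℚ_[p]} (h : ‖t‖ < ‖x‖) :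
    ∃ τ : ℤ_[p], t = x * τ ∧ psi g (x + t) = psi g x + tz (g (1 + τ)) := by
  have hx : x ≠ 0 := by
    rintro rfl
    exact absurd h (by simp)
  have h1 : ‖t / x‖ < 1 := by rwa [norm_div, div_lt_one (norm_pos_iff.2 hx)]
  refine ⟨⟨t / x, h1.le⟩, (mul_div_cancel₀ _ hx).symm, ?_⟩
  have h2 : ‖(1 + ⟨t / x, h1.le⟩ : ℤ_[p])‖ = 1 := by
    change ‖1 + t / x‖ = 1
    rw [norm_add_left (by simpa using h1), norm_one]
  have h3 : x + t = x * ((1 + ⟨t / x, h1.le⟩ : ℤ_[p]) : ℚ_[p]) := by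
    change _ = x * (1 + t / x)
    field_simp
  rw [h3, ad_psi g _ _ hx (fun e => by
    rw [PadicInt.norm_def, e, norm_zero] at h2
    exact zero_ne_one h2), psi, psi, up_unit h2]

/-- the Legendre character of the units -/
noncomputable def gL (p : ℕ) [Fact p.Prime] : ℤ_[p] →* ℤ :=
  (quadraticChar (ZMod p)).toMonoidHom.comp (PadicInt.toZMod (p := p)).toMonoidHom

theorem psiL_add {x t : ℚ_[p]} (h : ‖t‖ < ‖x‖) : psi (gL p) (x + t) = psi (gL p) x := by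
  obtain ⟨τ, h1, h2⟩ := psi_add (gL p) h
  have hx : 0 < ‖x‖ := (norm_nonneg _).trans_lt h
  have : PadicInt.toZMod τ = 0 := by
    rw [← RingHom.mem_ker, PadicInt.ker_toZMod, IsLocalRing.mem_maximalIdeal,
      PadicInt.mem_nonunits]
    rw [h1, norm_mul] at h
    exact (mul_lt_iff_lt_one_right hx).1 h
  have e : gL p (1 + τ) = 1 := by
    change quadraticChar (ZMod p) (PadicInt.toZMod (1 + τ)) = 1
    rw [map_add, this, add_zero, map_one, map_one]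
  rw [h2, e]
  exact add_zero _

theorem psiL_int {z : ℤ} (h : ¬ (p : ℤ) ∣ z) : psi (gL p) (z : ℚ_[p]) = tz (jacobiSym z p) := by
  rw [psi_int _ h, ← jacobiSym.legendreSym.to_jacobiSym]
  change tz (quadraticChar (ZMod p) (PadicInt.toZMod (z : ℤ_[p]))) = _
  rw [map_intCast]
  rfl

/-- reduction modulo four -/
noncomputable def f4 : ℤ_[2] →+* ZMod 4 := PadicInt.toZModPow 2

/-- the character modulo four of the two-adic units -/
noncomputable def g4 : ℤ_[2] →* ℤ := ZMod.χ₄.toMonoidHom.comp f4.toMonoidHom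

theorem norm_lt_of_val_lt {x t : ℚ_[p]} (hx : x ≠ 0) (ht : t ≠ 0)
    (h : x.valuation < t.valuation) : ‖t‖ < ‖x‖ := by
  rw [Padic.norm_eq_zpow_neg_valuation hx, Padic.norm_eq_zpow_neg_valuation ht]
  exact zpow_lt_zpow_right₀ (by exact_mod_cast (Fact.out : p.Prime).one_lt) (by omega)

theorem val_add {x t : ℚ_[p]} (hx : x ≠ 0) (ht : t ≠ 0) (h : x.valuation < t.valuation) :
    x + t ≠ 0 ∧ (x + t).valuation = x.valuation := by
  have := norm_add_left (norm_lt_of_val_lt hx ht h)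
  exact ⟨fun e => hx (by rw [e, norm_zero] at this; exact norm_eq_zero.1 this.symm),
    (val_congr hx this.symm).symm⟩

theorem psi4_add {x t : ℚ_[2]} (hx : x ≠ 0) (ht : t ≠ 0) (h : x.valuation < t.valuation) :
    psi g4 (x + t) = psi g4 x + if t.valuation = x.valuation + 1 then 1 else 0 := by
  obtain ⟨τ, h1, h2⟩ := psi_add g4 (norm_lt_of_val_lt hx ht h)
  have τ0 : (τ : ℚ_[2]) ≠ 0 := right_ne_zero_of_mul (h1 ▸ ht)
  have hv : t.valuation = x.valuation + (τ : ℚ_[2]).valuation := by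
    rw [h1, Padic.valuation_mul hx τ0]
  have k (n : ℕ) : PadicInt.toZModPow n τ = 0 ↔ (n : ℤ) ≤ (τ : ℚ_[2]).valuation := by
    rw [← RingHom.mem_ker, PadicInt.ker_toZModPow, ← PadicInt.norm_le_pow_iff_mem_span_pow,
      PadicInt.norm_def, Padic.norm_eq_zpow_neg_valuation τ0, zpow_le_zpow_iff_right₀ (by norm_num),
      neg_le_neg_iff]
  have e : g4 (1 + τ) = ZMod.χ₄ (1 + f4 τ) := by
    change ZMod.χ₄ (f4 (1 + τ)) = _
    rw [map_add, map_one]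
  rw [h2, e]
  congr 1
  split_ifs with h3
  · have a1 : f4 τ ≠ 0 := fun e => by
      have := (k 2).1 e
      omega
    have a2 : ZMod.castHom (show 2 ^ 1 ∣ 2 ^ 2 by norm_num) (ZMod (2 ^ 1)) (f4 τ) = 0 := by
      have := (k 1).2 (by omega)
      rwa [← PadicInt.zmod_cast_comp_toZModPow 1 2 (by norm_num)] at this
    revert a1 a2
    generalize f4 τ = c
    revert c
    decide
  · rw [show f4 τ = 0 from (k 2).2 (by omega)]
    decide

theorem psi4_int {z : ℤ} (h : ¬ (2 : ℤ) ∣ z) : psi g4 (z : ℚ_[2]) = tz (ZMod.χ₄ z) := by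
  rw [psi_int _ h]
  change tz (ZMod.χ₄ (f4 (z : ℤ_[2]))) = _
  rw [map_intCast]

end Vale.Agent.P014F
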