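import Vale.Agent.P014F.Half
import Vale.Agent.P014.Defs
import Vale.Agent.P017.H185.Loc

/-!
# Galois action on the chart, quadratic characters of the absolute Galois group
-/

namespace Vale.Agent.P014F

open WeierstrassCurve Vale.Agent.P014

variable {E : WeierstrassCurve ℚ} {r₁ r₂ r₃ : ℚ}

theorem Spl.bc (S : Spl E r₁ r₂ r₃) (F : Type*) [Field F] [Algebra ℚ F] :
    Spl (E⁄F) (algebraMap ℚ F r₁) (algebraMap ℚ F r₂) (algebraMap ℚ F r₃) where
  h2 := by
    simpa only [map_add, map_mul, map_pow, map_neg, map_ofNat] using! congrArg (algebraMap ℚ F) S.h2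
  h4 := by
    simpa only [map_add, map_mul, map_pow, map_neg, map_ofNat] using! congrArg (algebraMap ℚ F) S.h4
  h6 := by
    simpa only [map_add, map_mul, map_pow, map_neg, map_ofNat] using! congrArg (algebraMap ℚ F) S.h6
  n12 := (algebraMap ℚ F).injective.ne S.n12
  n13 := (algebraMap ℚ F).injective.ne S.n13
  n23 := (algebraMap ℚ F).injective.ne S.n23

section Map

variable {A F K : Type*} [CommRing A] [Field F] [Field K] [Algebra ℚ A] [Algebra ℚ F] [Algebra A F]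
  [IsScalarTower ℚ A F] [Algebra ℚ K] [Algebra A K] [IsScalarTower ℚ A K] [DecidableEq F]
  [DecidableEq K] (f : F →ₐ[A] K)

omit [DecidableEq F] [DecidableEq K] in
theorem map_rat (r : ℚ) : f (algebraMap ℚ F r) = algebraMap ℚ K r := by
  rw [IsScalarTower.algebraMap_apply ℚ A F, IsScalarTower.algebraMap_apply ℚ A K, f.commutes]

theorem map_pt (x η : F) :
    Affine.Point.map (W' := E) f (pt (E⁄F) x η) = pt (E⁄K) (f x) (f η) := by
  have e : f (yc (E⁄F) x η) = yc (E⁄K) (f x) (f η) := by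
    simp [yc, baseChange, map_ofNat]
  have e' := Affine.baseChange_nonsingular (W := E) f.injective x (yc (E⁄F) x η)
  rw [e] at e'
  unfold pt
  by_cases h : (E⁄F).toAffine.Nonsingular x (yc (E⁄F) x η)
  · rw [dif_pos h, dif_pos (e'.2 h), Affine.Point.map_some, Affine.Point.some.injEq]
    exact ⟨rfl, e⟩
  · rw [dif_neg h, dif_neg (fun h' => h (e'.1 h'))]
    rfl

theorem map_hf (r : ℚ) (u₁ u₂ u₃ : F) :
    Affine.Point.map (W' := E) f (hf (E⁄F) (algebraMap ℚ F r) u₁ u₂ u₃) =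
      hf (E⁄K) (algebraMap ℚ K r) (f u₁) (f u₂) (f u₃) := by
  unfold hf
  rw [map_pt]
  simp only [map_add, map_mul, map_rat f]

theorem map_tor (ε δ : ℤˣ) :
    Affine.Point.map (W' := E) f
      (tor (E⁄F) (algebraMap ℚ F r₁) (algebraMap ℚ F r₂) (algebraMap ℚ F r₃) ε δ) =
      tor (E⁄K) (algebraMap ℚ K r₁) (algebraMap ℚ K r₂) (algebraMap ℚ K r₃) ε δ := by
  unfold tor
  split_ifs
  · exact map_zero _
  all_goals rw [map_pt, map_rat f, map_zero]

omit [DecidableEq F] [DecidableEq K] in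
theorem Hy.map {u₁ u₂ u₃ : F}
    (h : Hy (algebraMap ℚ F r₁) (algebraMap ℚ F r₂) (algebraMap ℚ F r₃) u₁ u₂ u₃) :
    Hy (algebraMap ℚ K r₁) (algebraMap ℚ K r₂) (algebraMap ℚ K r₃) (f u₁) (f u₂) (f u₃) :=
  ⟨by simpa only [map_sub, map_pow, map_rat f] using congrArg f h.1,
    by simpa only [map_sub, map_pow, map_rat f] using congrArg f h.2⟩

end Map

/-- the algebraic closure of the rationals -/
abbrev Qb : Type := AlgebraicClosure ℚ

theorem galQb : IsGalois ℚ Qb := by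
  have : @IsGalois ℚ _ Qb _ (AlgebraicClosure.instAlgebra ℚ) := inferInstance
  exact this

attribute [local instance] galQb

theorem kummer0 (χ : GQ → ℤˣ) (hm : ∀ σ τ, χ (σ * τ) = χ σ * χ τ) (hc : IsLocallyConstant χ) :
    ∃ β : Qb, β ≠ 0 ∧ ∀ σ : GQ, σ β = (χ σ : ℤ) * β := by
  have h1 : χ 1 = 1 := by
    have := hm 1 1
    rw [one_mul] at this
    exact left_eq_mul.1 this
  let φ : GQ →* ℤˣ := ⟨⟨χ, h1⟩, hm⟩
  by_cases h0 : ∀ σ, χ σ = 1
  · exact ⟨1, one_ne_zero, fun σ => by simp [h0]⟩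
  push Not at h0
  obtain ⟨σ₀, h0⟩ := h0
  have hcl : IsClosed (φ.ker : Set GQ) := hc.isClosed_fiber 1
  have hfix := InfiniteGalois.fixingSubgroup_fixedField (k := ℚ) (K := Qb) ⟨φ.ker, hcl⟩
  have hn : σ₀ ∉ (IntermediateField.fixedField φ.ker).fixingSubgroup := by
    intro h
    exact h0 (show σ₀ ∈ φ.ker from hfix.le h)
  rw [IntermediateField.mem_fixingSubgroup_iff] at hn
  push Not at hn
  obtain ⟨x, hx, hx0⟩ := hn
  rw [IntermediateField.mem_fixedField_iff] at hx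
  have hx' : ∀ σ : GQ, χ σ = 1 → σ x = x := fun σ h => hx σ h
  have m0 : χ σ₀ = -1 := (Int.units_eq_one_or _).resolve_left h0
  have hi : χ σ₀⁻¹ = -1 := by
    have := hm σ₀ σ₀⁻¹
    rw [mul_inv_cancel, h1, m0] at this
    rcases Int.units_eq_one_or (χ σ₀⁻¹) with h | h
    · rw [h] at this
      exact absurd this (by decide)
    · exact h
  have k (σ : GQ) (h : χ σ = -1) : σ x = σ₀ x := by
    have := hx' (σ₀⁻¹ * σ) (by rw [hm, hi, h]; decide)
    rw [← this]
    change σ (σ₀⁻¹ (σ x)) = σ₀ (σ₀⁻¹ (σ x))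
    rw [show σ₀⁻¹ (σ x) = x from this]
    exact ((AlgEquiv.apply_symm_apply σ₀ (σ x)).symm.trans (congrArg σ₀ this))
  refine ⟨x - σ₀ x, sub_ne_zero.2 hx0.symm, fun σ => ?_⟩
  rw [map_sub]
  rcases Int.units_eq_one_or (χ σ) with h | h
  · rw [hx' σ h, show σ (σ₀ x) = σ₀ x from k (σ * σ₀) (by rw [hm, h, m0, one_mul]), h]
    simp
  · rw [k σ h, show σ (σ₀ x) = x from hx' (σ * σ₀) (by rw [hm, h, m0]; decide), h]
    simp

/-- a continuous quadratic character comes from the square root of a squarefree integer -/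
theorem kummer (χ : GQ → ℤˣ) (hm : ∀ σ τ, χ (σ * τ) = χ σ * χ τ) (hc : IsLocallyConstant χ) :
    ∃ (b : ℤ) (β : Qb), Squarefree b ∧ β ^ 2 = b ∧ ∀ σ : GQ, σ β = (χ σ : ℤ) * β := by
  obtain ⟨β, h0, hβ⟩ := kummer0 χ hm hc
  obtain ⟨X, hX⟩ := (InfiniteGalois.mem_range_algebraMap_iff_fixed (k := ℚ) (β ^ 2)).2 fun σ => by
    rw [map_pow, hβ, mul_pow, sq_unit, one_mul]
  have hX0 : X ≠ 0 := by
    rintro rfl
    rw [map_zero] at hX
    exact pow_ne_zero 2 h0 hX.symm
  obtain ⟨b, M, e, hb, -, hM, he, hXb⟩ := P017.H185.exists_sqf hX0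
  have hq : (M / e : ℚ) ≠ 0 := div_ne_zero (by exact_mod_cast hM) (by exact_mod_cast he)
  have hq' : algebraMap ℚ Qb (M / e) ≠ 0 := (map_ne_zero _).2 hq
  refine ⟨b, β / algebraMap ℚ Qb (M / e), hb, ?_, fun σ => ?_⟩
  · rw [div_pow, ← hX, hXb, map_mul, map_pow, mul_div_cancel_right₀ _ (pow_ne_zero 2 hq'),
      map_intCast]
  · rw [map_div₀, hβ, σ.commutes, mul_div_assoc]

theorem exists_res {K : Type} [Field K] [Algebra ℚ K] (ι : Qb →ₐ[ℚ] AlgebraicClosure K)
    (τ : AlgebraicClosure K ≃ₐ[K] AlgebraicClosure K) : ∃ σ : GQ, ∀ x, ι (σ x) = τ (ι x) := by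
  let _ : Algebra Qb (AlgebraicClosure K) := ι.toRingHom.toAlgebra
  have : @IsScalarTower ℚ Qb (AlgebraicClosure K) Algebra.toSMul Algebra.toSMul Algebra.toSMul :=
    IsScalarTower.of_algebraMap_eq fun x => (ι.commutes x).symm
  exact ⟨(τ.restrictScalars ℚ).restrictNormal Qb,
    fun x => (τ.restrictScalars ℚ).restrictNormal_commutes Qb x⟩

theorem lc_apply (x : Qb) : IsLocallyConstant fun σ : GQ => σ x := by
  rw [IsLocallyConstant.iff_exists_open]
  intro σ
  refine ⟨(fun τ => σ⁻¹ * τ) ⁻¹' (MulAction.stabilizer GQ x : Set GQ),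
    (stabilizer_isOpen_of_isIntegral x).preimage (continuous_const_mul _), by simp, fun τ hτ => ?_⟩
  have : σ⁻¹ (τ x) = x := hτ
  exact (AlgEquiv.apply_symm_apply σ (τ x)).symm.trans (congrArg σ this)

end Vale.Agent.P014F
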