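import Vale.Agent.P014F.Chart

/-!
# Halving of points and translation by two-torsion points
-/

namespace Vale.Agent.P014F

open WeierstrassCurve

variable {F : Type*} [Field F]

/-- the equations of the two-covering -/
def Hy (r₁ r₂ r₃ u₁ u₂ u₃ : F) : Prop := u₁ ^ 2 - u₂ ^ 2 = r₂ - r₁ ∧ u₁ ^ 2 - u₃ ^ 2 = r₃ - r₁

/-- the point attached to a solution of the equations of the two-covering -/
noncomputable def hf (W : WeierstrassCurve F) (r₁ u₁ u₂ u₃ : F) : W.toAffine.Point :=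
  pt W (r₁ + (u₁ + u₂) * (u₁ + u₃)) ((u₁ + u₂) * (u₁ + u₃) * (u₂ + u₃))

/-- the two-torsion point attached to two signs -/
noncomputable def tor (W : WeierstrassCurve F) (r₁ r₂ r₃ : F) (ε δ : ℤˣ) : W.toAffine.Point :=
  if ε = 1 then (if δ = 1 then 0 else pt W r₁ 0) else (if δ = 1 then pt W r₂ 0 else pt W r₃ 0)

variable {W : WeierstrassCurve F} {r₁ r₂ r₃ u₁ u₂ u₃ : F}

theorem Hy.on (h : Hy r₁ r₂ r₃ u₁ u₂ u₃) : ((u₁ + u₂) * (u₁ + u₃) * (u₂ + u₃)) ^ 2 =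
    (r₁ + (u₁ + u₂) * (u₁ + u₃) - r₁) * (r₁ + (u₁ + u₂) * (u₁ + u₃) - r₂) *
      (r₁ + (u₁ + u₂) * (u₁ + u₃) - r₃) := by
  have e2 : r₁ + (u₁ + u₂) * (u₁ + u₃) - r₂ = (u₁ + u₂) * (u₂ + u₃) := by linear_combination h.1
  have e3 : r₁ + (u₁ + u₂) * (u₁ + u₃) - r₃ = (u₁ + u₃) * (u₂ + u₃) := by linear_combination h.2
  rw [e2, e3]
  ring

theorem sq_unit (ε : ℤˣ) : ((ε : ℤ) : F) ^ 2 = 1 := by
  rcases Int.units_eq_one_or ε with rfl | rfl <;> simp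

theorem unit_ne (ε : ℤˣ) : ((ε : ℤ) : F) ≠ 0 := fun h => by
  have := sq_unit (F := F) ε
  rw [h] at this
  simp at this

theorem Hy.sign (h : Hy r₁ r₂ r₃ u₁ u₂ u₃) (ε δ : ℤˣ) :
    Hy r₁ r₂ r₃ ((ε : ℤ) * u₁) ((δ : ℤ) * u₂) ((ε : ℤ) * (δ : ℤ) * u₃) := by
  constructor
  · rw [mul_pow, mul_pow, sq_unit, sq_unit, one_mul, one_mul, h.1]
  · rw [mul_pow, mul_pow, mul_pow, sq_unit, sq_unit, one_mul, one_mul, one_mul, h.2]

theorem Spl.ne12 (S : Spl W r₁ r₂ r₃) (h : Hy r₁ r₂ r₃ u₁ u₂ u₃) : u₁ + u₂ ≠ 0 := fun e =>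
  S.n12 (by linear_combination h.1 - (u₁ - u₂) * e)

theorem Spl.ne13 (S : Spl W r₁ r₂ r₃) (h : Hy r₁ r₂ r₃ u₁ u₂ u₃) : u₁ + u₃ ≠ 0 := fun e =>
  S.n13 (by linear_combination h.2 - (u₁ - u₃) * e)

theorem Spl.ne23 (S : Spl W r₁ r₂ r₃) (h : Hy r₁ r₂ r₃ u₁ u₂ u₃) : u₂ + u₃ ≠ 0 := fun e =>
  S.n23 (by linear_combination h.2 - h.1 - (u₂ - u₃) * e)

variable [CharZero F]

theorem Spl.hf_inj (S : Spl W r₁ r₂ r₃) (h : Hy r₁ r₂ r₃ u₁ u₂ u₃) {v₁ v₂ v₃ : F}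
    (h' : Hy r₁ r₂ r₃ v₁ v₂ v₃) (e : hf W r₁ u₁ u₂ u₃ = hf W r₁ v₁ v₂ v₃) :
    u₁ = v₁ ∧ u₂ = v₂ ∧ u₃ = v₃ := by
  obtain ⟨e1, e2⟩ := S.pt_inj h.on h'.on e
  have a := S.ne12 h
  have b := S.ne13 h
  have c := S.ne23 h
  have f1 : (u₁ + u₂) * (u₁ + u₃) = (v₁ + v₂) * (v₁ + v₃) := by linear_combination e1
  have f2 : (u₁ + u₂) * (u₂ + u₃) = (v₁ + v₂) * (v₂ + v₃) := by
    linear_combination e1 - h.1 + h'.1
  have f3 : (u₁ + u₃) * (u₂ + u₃) = (v₁ + v₃) * (v₂ + v₃) := by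
    linear_combination e1 - h.2 + h'.2
  have g1 : u₂ + u₃ = v₂ + v₃ :=
    mul_left_cancel₀ (mul_ne_zero a b) (by linear_combination e2 - (v₂ + v₃) * f1)
  have g2 : u₁ + u₃ = v₁ + v₃ :=
    mul_left_cancel₀ (mul_ne_zero a c) (by linear_combination e2 - (v₁ + v₃) * f2)
  have g3 : u₁ + u₂ = v₁ + v₂ :=
    mul_left_cancel₀ (mul_ne_zero b c) (by linear_combination e2 - (v₁ + v₂) * f3)
  exact ⟨by linear_combination (g2 + g3 - g1) / 2, by linear_combination (g1 + g3 - g2) / 2,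
    by linear_combination (g1 + g2 - g3) / 2⟩

theorem Spl.exists_hf (S : Spl W r₁ r₂ r₃) {x η : F}
    (h : η ^ 2 = (x - r₁) * (x - r₂) * (x - r₃)) (h0 : η ≠ 0) :
    ∃ u₁ u₂ u₃, Hy r₁ r₂ r₃ u₁ u₂ u₃ ∧ pt W x η = hf W r₁ u₁ u₂ u₃ := by
  have h' : (x - r₁) * (x - r₂) * (x - r₃) ≠ 0 := h ▸ pow_ne_zero 2 h0
  have a := left_ne_zero_of_mul (left_ne_zero_of_mul h')
  have b := right_ne_zero_of_mul (left_ne_zero_of_mul h')
  have c := right_ne_zero_of_mul h'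
  obtain ⟨A, hA⟩ : ∃ A, A * (x - r₁) = η := ⟨η / _, div_mul_cancel₀ _ a⟩
  obtain ⟨B, hB⟩ : ∃ B, B * (x - r₂) = η := ⟨η / _, div_mul_cancel₀ _ b⟩
  obtain ⟨C, hC⟩ : ∃ C, C * (x - r₃) = η := ⟨η / _, div_mul_cancel₀ _ c⟩
  have f1 : B * C = x - r₁ := mul_right_cancel₀ (mul_ne_zero b c) (by
    linear_combination h + (C * (x - r₃)) * hB + η * hC)
  have f2 : A * C = x - r₂ := mul_right_cancel₀ (mul_ne_zero a c) (by
    linear_combination h + (C * (x - r₃)) * hA + η * hC)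
  have f3 : A * B = x - r₃ := mul_right_cancel₀ (mul_ne_zero a b) (by
    linear_combination h + (B * (x - r₂)) * hA + η * hB)
  refine ⟨(B + C - A) / 2, (A + C - B) / 2, (A + B - C) / 2,
    ⟨by linear_combination f1 - f2, by linear_combination f1 - f3⟩, ?_⟩
  unfold hf
  congr 1
  · linear_combination -f1
  · linear_combination -hA - A * f1

variable [DecidableEq F]

theorem Spl.two_hf (S : Spl W r₁ r₂ r₃) (h : Hy r₁ r₂ r₃ u₁ u₂ u₃) :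
    hf W r₁ u₁ u₂ u₃ + hf W r₁ u₁ u₂ u₃ = pt W (r₁ + u₁ ^ 2) (u₁ * u₂ * u₃) := by
  refine (S.add_pt (m := u₁ + u₂ + u₃) h.on h.on (.inr ⟨rfl, rfl,
    mul_ne_zero (mul_ne_zero (S.ne12 h) (S.ne13 h)) (S.ne23 h), ?_⟩) ?_ ?_).2
  · have e2 : r₁ + (u₁ + u₂) * (u₁ + u₃) - r₂ = (u₁ + u₂) * (u₂ + u₃) := by linear_combination h.1
    have e3 : r₁ + (u₁ + u₂) * (u₁ + u₃) - r₃ = (u₁ + u₃) * (u₂ + u₃) := by linear_combination h.2
    rw [e2, e3]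
    ring
  · linear_combination h.1 + h.2
  · ring

theorem Spl.hf_add_tor (S : Spl W r₁ r₂ r₃) (h : Hy r₁ r₂ r₃ u₁ u₂ u₃) (ε δ : ℤˣ) :
    hf W r₁ u₁ u₂ u₃ + tor W r₁ r₂ r₃ ε δ =
      hf W r₁ ((ε : ℤ) * u₁) ((δ : ℤ) * u₂) ((ε : ℤ) * (δ : ℤ) * u₃) := by
  have a := S.ne12 h
  have b := S.ne13 h
  have c := S.ne23 h
  have e2 : r₁ + (u₁ + u₂) * (u₁ + u₃) - r₂ = (u₁ + u₂) * (u₂ + u₃) := by linear_combination h.1
  have e3 : r₁ + (u₁ + u₂) * (u₁ + u₃) - r₃ = (u₁ + u₃) * (u₂ + u₃) := by linear_combination h.2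
  have m1 : (-1 : ℤˣ) ≠ 1 := by decide
  rcases Int.units_eq_one_or ε with rfl | rfl <;> rcases Int.units_eq_one_or δ with rfl | rfl
  · simp [tor]
  · rw [tor, if_pos rfl, if_neg m1]
    refine (S.add_pt (m := u₂ + u₃) h.on (by ring) (.inl ⟨fun e => mul_ne_zero a b
      (by linear_combination e), by ring⟩) ?_ ?_).2
    · push_cast
      linear_combination h.1 + h.2
    · push_cast
      ring
  · rw [tor, if_neg m1, if_pos rfl]
    refine (S.add_pt (m := u₁ + u₃) h.on (by ring) (.inl ⟨fun e => mul_ne_zero a c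
      (by linear_combination e - e2), by rw [e2]; ring⟩) ?_ ?_).2
    · push_cast
      linear_combination h.2
    · push_cast
      ring
  · rw [tor, if_neg m1, if_neg m1]
    refine (S.add_pt (m := u₁ + u₂) h.on (by ring) (.inl ⟨fun e => mul_ne_zero b c
      (by linear_combination e - e3), by rw [e3]; ring⟩) ?_ ?_).2
    · push_cast
      linear_combination h.1
    · push_cast
      ring

theorem Spl.two_tor (S : Spl W r₁ r₂ r₃) (ε δ : ℤˣ) :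
    tor W r₁ r₂ r₃ ε δ + tor W r₁ r₂ r₃ ε δ = 0 := by
  have k (r : F) (h : (0 : F) ^ 2 = (r - r₁) * (r - r₂) * (r - r₃)) : pt W r 0 + pt W r 0 = 0 := by
    have := S.add_neg_pt h
    rwa [neg_zero] at this
  unfold tor
  split_ifs
  exacts [add_zero _, k _ (by ring), k _ (by ring), k _ (by ring)]

omit [DecidableEq F] [CharZero F] in
theorem tor_of_zero {x : F} (h : (0 : F) ^ 2 = (x - r₁) * (x - r₂) * (x - r₃)) :
    ∃ ε δ, pt W x 0 = tor W r₁ r₂ r₃ ε δ := by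
  have m1 : (-1 : ℤˣ) ≠ 1 := by decide
  have h' : (x - r₁) * (x - r₂) * (x - r₃) = 0 := by linear_combination -h
  rcases mul_eq_zero.1 h' with h' | h'
  · rcases mul_eq_zero.1 h' with h' | h'
    · exact ⟨1, -1, by rw [tor, if_pos rfl, if_neg m1, sub_eq_zero.1 h']⟩
    · exact ⟨-1, 1, by rw [tor, if_neg m1, if_pos rfl, sub_eq_zero.1 h']⟩
  · exact ⟨-1, -1, by rw [tor, if_neg m1, if_neg m1, sub_eq_zero.1 h']⟩

omit [DecidableEq F] in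
/-- every point is a two-torsion point or comes from the two-covering -/
theorem Spl.cases' (S : Spl W r₁ r₂ r₃) (P : W.toAffine.Point) :
    (∃ ε δ, P = tor W r₁ r₂ r₃ ε δ) ∨ ∃ u₁ u₂ u₃, Hy r₁ r₂ r₃ u₁ u₂ u₃ ∧ P = hf W r₁ u₁ u₂ u₃ := by
  rcases S.cases P with rfl | ⟨x, η, h, rfl⟩
  · exact .inl ⟨1, 1, by simp [tor]⟩
  · by_cases h0 : η = 0
    · subst h0
      exact .inl (tor_of_zero h)
    · exact .inr (S.exists_hf h h0)

omit [CharZero F] [DecidableEq F] in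
theorem Hy.on2 (h : Hy r₁ r₂ r₃ u₁ u₂ u₃) :
    (u₁ * u₂ * u₃) ^ 2 = (r₁ + u₁ ^ 2 - r₁) * (r₁ + u₁ ^ 2 - r₂) * (r₁ + u₁ ^ 2 - r₃) := by
  have e2 : r₁ + u₁ ^ 2 - r₂ = u₂ ^ 2 := by linear_combination h.1
  have e3 : r₁ + u₁ ^ 2 - r₃ = u₃ ^ 2 := by linear_combination h.2
  rw [e2, e3]
  ring

theorem Spl.tor_of_two (S : Spl W r₁ r₂ r₃) {P : W.toAffine.Point} (h : P + P = 0) :
    ∃ ε δ, P = tor W r₁ r₂ r₃ ε δ := by
  rcases S.cases' P with h' | ⟨u₁, u₂, u₃, hu, rfl⟩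
  · exact h'
  · rw [S.two_hf hu] at h
    exact absurd h (S.pt_ne hu.on2)

omit [DecidableEq F] in
theorem Spl.tor_inj (S : Spl W r₁ r₂ r₃) {ε δ ε' δ' : ℤˣ}
    (h : tor W r₁ r₂ r₃ ε δ = tor W r₁ r₂ r₃ ε' δ') : ε = ε' ∧ δ = δ' := by
  have m1 : (-1 : ℤˣ) ≠ 1 := by decide
  have o1 : (0 : F) ^ 2 = (r₁ - r₁) * (r₁ - r₂) * (r₁ - r₃) := by ring
  have o2 : (0 : F) ^ 2 = (r₂ - r₁) * (r₂ - r₂) * (r₂ - r₃) := by ring
  have o3 : (0 : F) ^ 2 = (r₃ - r₁) * (r₃ - r₂) * (r₃ - r₃) := by ring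
  have p1 := S.pt_ne o1
  have p2 := S.pt_ne o2
  have p3 := S.pt_ne o3
  have q12 : pt W r₁ 0 ≠ pt W r₂ 0 := fun e => S.n12 (S.pt_inj o1 o2 e).1
  have q13 : pt W r₁ 0 ≠ pt W r₃ 0 := fun e => S.n13 (S.pt_inj o1 o3 e).1
  have q23 : pt W r₂ 0 ≠ pt W r₃ 0 := fun e => S.n23 (S.pt_inj o2 o3 e).1
  rcases Int.units_eq_one_or ε with rfl | rfl <;> rcases Int.units_eq_one_or δ with rfl | rfl <;>
    rcases Int.units_eq_one_or ε' with rfl | rfl <;>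
    rcases Int.units_eq_one_or δ' with rfl | rfl <;>
    simp only [tor, m1, if_true, if_false] at h <;>
    first
      | exact ⟨rfl, rfl⟩
      | exact absurd h (by first | assumption | exact Ne.symm (by assumption))

theorem Spl.tor_add (S : Spl W r₁ r₂ r₃) (ε δ ε' δ' : ℤˣ) :
    tor W r₁ r₂ r₃ ε δ + tor W r₁ r₂ r₃ ε' δ' = tor W r₁ r₂ r₃ (ε * ε') (δ * δ') := by
  have o1 : (0 : F) ^ 2 = (r₁ - r₁) * (r₁ - r₂) * (r₁ - r₃) := by ring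
  have o2 : (0 : F) ^ 2 = (r₂ - r₁) * (r₂ - r₂) * (r₂ - r₃) := by ring
  have o3 : (0 : F) ^ 2 = (r₃ - r₁) * (r₃ - r₂) * (r₃ - r₃) := by ring
  have m1 : (-1 : ℤˣ) ≠ 1 := by decide
  have k (a b c : F) (ha : (0 : F) ^ 2 = (a - r₁) * (a - r₂) * (a - r₃))
      (hb : (0 : F) ^ 2 = (b - r₁) * (b - r₂) * (b - r₃)) (hab : a ≠ b)
      (hc : c = r₁ + r₂ + r₃ - a - b) : pt W a 0 + pt W b 0 = pt W c 0 :=
    (S.add_pt (m := 0) ha hb (.inl ⟨hab, by ring⟩) (by rw [hc]; ring) (by ring)).2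
  have d (r : F) (h : (0 : F) ^ 2 = (r - r₁) * (r - r₂) * (r - r₃)) : pt W r 0 + pt W r 0 = 0 := by
    have := S.add_neg_pt h
    rwa [neg_zero] at this
  rcases Int.units_eq_one_or ε with rfl | rfl <;> rcases Int.units_eq_one_or δ with rfl | rfl <;>
    rcases Int.units_eq_one_or ε' with rfl | rfl <;>
    rcases Int.units_eq_one_or δ' with rfl | rfl <;>
    simp only [tor, m1, if_true, if_false, mul_one, one_mul, neg_mul_neg, zero_add, add_zero]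
  exacts [d _ o1, k _ _ _ o1 o2 S.n12 (by ring), k _ _ _ o1 o3 S.n13 (by ring),
    k _ _ _ o2 o1 S.n12.symm (by ring), d _ o2, k _ _ _ o2 o3 S.n23 (by ring),
    k _ _ _ o3 o1 S.n13.symm (by ring), k _ _ _ o3 o2 S.n23.symm (by ring), d _ o3]

/-- over an algebraically closed field every point can be halved -/
theorem Spl.exists_half [IsAlgClosed F] (S : Spl W r₁ r₂ r₃) (P : W.toAffine.Point) :
    ∃ Q, Q + Q = P := by
  rcases S.cases P with rfl | ⟨x, η, h, rfl⟩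
  · exact ⟨0, add_zero _⟩
  obtain ⟨u₁, h1⟩ := IsAlgClosed.exists_pow_nat_eq (x - r₁) two_pos
  obtain ⟨u₂, h2⟩ := IsAlgClosed.exists_pow_nat_eq (x - r₂) two_pos
  obtain ⟨u₃, h3⟩ := IsAlgClosed.exists_pow_nat_eq (x - r₃) two_pos
  have e : (u₁ * u₂ * u₃ - η) * (u₁ * u₂ * u₃ + η) = 0 := by
    rw [← h1, ← h2, ← h3] at h
    linear_combination -h
  have hx : r₁ + u₁ ^ 2 = x := by linear_combination h1
  rcases mul_eq_zero.1 e with e | e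
  · refine ⟨_, (S.two_hf (u₁ := u₁) (u₂ := u₂) (u₃ := u₃)
      ⟨by linear_combination h1 - h2, by linear_combination h1 - h3⟩).trans ?_⟩
    rw [hx, sub_eq_zero.1 e]
  · refine ⟨_, (S.two_hf (u₁ := u₁) (u₂ := u₂) (u₃ := -u₃)
      ⟨by linear_combination h1 - h2, by linear_combination h1 - h3⟩).trans ?_⟩
    rw [hx, show u₁ * u₂ * -u₃ = η by linear_combination -e]

end Vale.Agent.P014F
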