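import Vale.Agent.P014F.Coc
import Vale.Agent.P017.H185.Fin

/-!
# The group of rational points
-/

namespace Vale.Agent.P014F

open WeierstrassCurve Vale.Agent.P014
open scoped Classical

attribute [local instance] galQb

variable {E : WeierstrassCurve ℚ} {r₁ r₂ r₃ : ℚ}

/-- the inclusion of the rational points -/
noncomputable def jb (E : WeierstrassCurve ℚ) : E.toAffine.Point →+ Pbar E :=
  Affine.Point.map (W' := E) (Algebra.ofId ℚ Qb)

theorem act_jb (σ : GQ) (P : E.toAffine.Point) : act E σ (jb E P) = jb E P := by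
  rcases P with _ | ⟨x, y, h⟩
  · rfl
  · change Affine.Point.some _ _ _ = Affine.Point.some _ _ _
    rw [Affine.Point.some.injEq]
    exact ⟨σ.commutes x, σ.commutes y⟩

theorem exists_jb {Q : Pbar E} (h : ∀ σ, act E σ Q = Q) : ∃ P, jb E P = Q := by
  rcases Q with _ | ⟨x, y, hxy⟩
  · exact ⟨0, rfl⟩
  have k (σ : GQ) : σ x = x ∧ σ y = y := Affine.Point.some.inj (h σ)
  obtain ⟨a, rfl⟩ := (InfiniteGalois.mem_range_algebraMap_iff_fixed (k := ℚ) x).2 fun σ => (k σ).1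
  obtain ⟨b, rfl⟩ := (InfiniteGalois.mem_range_algebraMap_iff_fixed (k := ℚ) y).2 fun σ => (k σ).2
  exact ⟨.some a b ((Affine.baseChange_nonsingular (W := E) (Algebra.ofId ℚ Qb).injective a b).1
    hxy), rfl⟩

theorem descent (S : Spl E r₁ r₂ r₃) (hS : SelTriv (r₂ - r₁) (r₃ - r₁)) (P : E.toAffine.Point) :
    ∃ e d R, P = tor E r₁ r₂ r₃ e d + 2 • R := by
  obtain ⟨Q, hQ⟩ := (S.bc Qb).exists_half (jb E P)
  obtain ⟨Q', e, d, h1, h2⟩ := cob_of_sel S hS (cob_mem Q) fun σ => by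
    have := act_jb σ (E := E) P
    rw [← hQ, map_add, ← sub_eq_zero] at this
    rw [← this]
    abel
  obtain ⟨R, hR⟩ := exists_jb (Q := Q - Q') fun σ => by
    have : act E σ Q - Q = _ := h2 σ
    rw [map_sub, eq_add_of_sub_eq this]
    abel
  refine ⟨e, d, R, Affine.Point.map_injective (W' := E) (Algebra.ofId ℚ Qb) ?_⟩
  have h3 : jb E (tor E r₁ r₂ r₃ e d) = torb E r₁ r₂ r₃ e d :=
    map_tor (E := E) (r₁ := r₁) (r₂ := r₂) (r₃ := r₃) (Algebra.ofId ℚ Qb) e d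
  have h4 : jb E P = jb E (tor E r₁ r₂ r₃ e d) + (jb E R + jb E R) := by
    rw [← hQ, h3, ← h1, hR]
    abel
  rw [← map_add, ← map_add, ← two_nsmul] at h4
  exact h4

/-- the short model -/
def sh (r₁ r₂ r₃ : ℚ) : WeierstrassCurve ℚ :=
  ⟨0, -(r₁ + r₂ + r₃), 0, r₁ * r₂ + r₁ * r₃ + r₂ * r₃, -(r₁ * r₂ * r₃)⟩

theorem Spl.sh (S : Spl E r₁ r₂ r₃) : Spl (sh r₁ r₂ r₃) r₁ r₂ r₃ :=
  ⟨by simp only [P014F.sh]; ring, by simp only [P014F.sh]; ring, by simp only [P014F.sh]; ring,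
    S.n12, S.n13, S.n23⟩

theorem Spl.disc {F : Type*} [Field F] [CharZero F] {W : WeierstrassCurve F} {r₁ r₂ r₃ : F}
    (S : Spl W r₁ r₂ r₃) : W.Δ = 16 * ((r₁ - r₂) * (r₁ - r₃) * (r₂ - r₃)) ^ 2 := by
  have h2 : W.b₂ = -4 * (r₁ + r₂ + r₃) := S.h2
  have h4 : W.b₄ = 2 * (r₁ * r₂ + r₁ * r₃ + r₂ * r₃) := S.h4
  have h6 : W.b₆ = -4 * (r₁ * r₂ * r₃) := S.h6
  have h8 : W.b₈ = (W.b₂ * W.b₆ - W.b₄ ^ 2) / 4 := by linear_combination W.b_relation / 4
  rw [Δ, h8, h2, h4, h6]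
  ring

theorem Spl.elliptic {F : Type*} [Field F] [CharZero F] {W : WeierstrassCurve F} {r₁ r₂ r₃ : F}
    (S : Spl W r₁ r₂ r₃) : W.IsElliptic :=
  ⟨Ne.isUnit (by
    rw [S.disc]
    exact mul_ne_zero (by norm_num) (pow_ne_zero 2 (mul_ne_zero (mul_ne_zero
      (sub_ne_zero.2 S.n12) (sub_ne_zero.2 S.n13)) (sub_ne_zero.2 S.n23))))⟩

theorem finite_pts (S : Spl E r₁ r₂ r₃) (hS : SelTriv (r₂ - r₁) (r₃ - r₁)) :
    Finite E.toAffine.Point := by
  have := S.sh.elliptic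
  have hf : Finite (sh r₁ r₂ r₃).toAffine.Point :=
    P017.H185.finite_of_descent _ rfl rfl
      (Set.range fun x : ℤˣ × ℤˣ => tor (sh r₁ r₂ r₃) r₁ r₂ r₃ x.1 x.2) (Set.finite_range _) 2
      two_ne_zero (by rintro _ ⟨x, rfl⟩; rw [two_nsmul]; exact S.sh.two_tor _ _) fun P => by
        obtain ⟨e, d, R, h⟩ := descent S.sh hS P
        exact ⟨_, ⟨(e, d), rfl⟩, R, h⟩
  let g : (sh r₁ r₂ r₃).toAffine.Point → E.toAffine.Point := fun P =>
    match P with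
    | 0 => 0
    | .some x y _ => pt E x y
  refine Finite.of_surjective g fun P => ?_
  rcases S.cases P with rfl | ⟨x, η, h, rfl⟩
  · exact ⟨0, rfl⟩
  · refine ⟨.some _ _ (S.sh.ns h), ?_⟩
    change pt E x (yc _ x η) = _
    simp [yc, sh]

theorem val_torsion (S : Spl E r₁ r₂ r₃) [Finite E.toAffine.Point]
    (h4 : ∀ u₁ u₂ u₃ : ℚ, Hy r₁ r₂ r₃ u₁ u₂ u₃ → u₁ * u₂ * u₃ ≠ 0) :
    padicValNat 2 (torsionOrder E) = 2 := by
  let G := E.toAffine.Point
  let H : AddSubgroup G := (nsmulAddMonoidHom (α := G) 2).ker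
  have hH (P : G) : P ∈ H ↔ P + P = 0 := by
    rw [← two_nsmul]
    rfl
  have c1 : Nat.card H = 4 := by
    rw [← Nat.card_eq_of_bijective (fun x : ℤˣ × ℤˣ =>
      (⟨tor E r₁ r₂ r₃ x.1 x.2, (hH _).2 (S.two_tor _ _)⟩ : H)) ⟨fun x y h => ?_, fun P => ?_⟩]
    · simp
    · exact Prod.ext (S.tor_inj (congrArg Subtype.val h)).1 (S.tor_inj (congrArg Subtype.val h)).2
    · obtain ⟨e, d, h⟩ := S.tor_of_two ((hH _).1 P.2)
      exact ⟨(e, d), Subtype.ext h.symm⟩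
  have c2 : ¬ 2 ∣ Nat.card (G ⧸ H) := by
    intro h
    obtain ⟨x, hx⟩ := exists_prime_addOrderOf_dvd_card' 2 h
    obtain ⟨P, rfl⟩ := QuotientAddGroup.mk_surjective x
    have h1 : P ∉ H := fun h => by
      rw [(QuotientAddGroup.eq_zero_iff P).2 h, addOrderOf_zero] at hx
      exact absurd hx (by norm_num)
    have h2 : P + P ∈ H := by
      have := addOrderOf_nsmul_eq_zero (P : G ⧸ H)
      rwa [hx, two_nsmul, ← QuotientAddGroup.mk_add, QuotientAddGroup.eq_zero_iff] at this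
    rcases S.cases' P with ⟨e, d, rfl⟩ | ⟨u₁, u₂, u₃, hu, rfl⟩
    · exact h1 ((hH _).2 (S.two_tor e d))
    · rw [hH, S.two_hf hu, add_eq_zero_iff_eq_neg, S.neg_pt hu.on2] at h2
      have := (S.pt_inj hu.on2 (by rw [← hu.on2]; ring) h2).2
      exact h4 _ _ _ hu (by linear_combination this / 2)
  have c3 : torsionOrder E = 2 ^ 2 * Nat.card (G ⧸ H) := by
    rw [torsionOrder, AddCommGroup.torsion_eq_top_iff.2 (isAddTorsion_of_finite), Nat.card_congr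
      AddSubgroup.topEquiv.toEquiv, AddSubgroup.card_eq_card_quotient_mul_card_addSubgroup H, c1]
    ring
  rw [c3, padicValNat.mul (by norm_num) (Nat.card_pos (α := G ⧸ H)).ne', padicValNat.prime_pow,
    padicValNat.eq_zero_of_not_dvd c2]

end Vale.Agent.P014F
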