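import Vale.Agent.P014F.Tam
import Vale.Agent.P014F.MW
import Vale.Agent.P014.H687.Lf1

/-!
# The twists of `17a2`: roots, minimality, torsion and Tamagawa numbers
-/

namespace Vale.Agent.P014F

open WeierstrassCurve Vale.Agent.P014 Vale.Agent.P014.H687

theorem spl_tw (k : ℤ) : Spl (tw k) (-5 * ((4 * k + 1 : ℤ) : ℚ) / 4) (-((4 * k + 1 : ℤ) : ℚ))
    (3 * ((4 * k + 1 : ℤ) : ℚ)) := by
  have h : ((4 * k + 1 : ℤ) : ℚ) ≠ 0 := by
    rw [Int.cast_ne_zero]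
    omega
  refine ⟨?_, ?_, ?_, fun e => h (by linarith), fun e => h (by linarith), fun e => h (by linarith)⟩
  all_goals
    simp only [tw]
    push_cast
    ring

theorem tw_int (k : ℤ) : tw k = (TW ℤ k).map (Int.castRingHom ℚ) := by
  rw [tw_eq, TW_map]

theorem minimal_tw {k : ℤ} (hs : Squarefree (4 * k + 1)) (h17 : ¬ 17 ∣ 4 * k + 1) :
    GlobalMinimal (tw k) := by
  refine ⟨⟨TW ℤ k, tw_int k⟩, fun C ⟨W, hW⟩ => ?_⟩
  have h1 : (C • tw k).Δ = (W.Δ : ℚ) := by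
    rw [hW, baseChange, map_Δ]
    rfl
  have h2 := variableChange_Δ (tw k) C
  obtain ⟨v, hv⟩ : ∃ v : ℚ, v = ↑C.u⁻¹ := ⟨_, rfl⟩
  have v0 : v ≠ 0 := hv ▸ Units.ne_zero _
  rw [← hv] at h2
  have hd : v.den = 1 := by
    by_contra hd
    obtain ⟨q, hq, hqd⟩ := Nat.exists_prime_and_dvd hd
    have hq' := Nat.prime_iff_prime_int.1 hq
    rw [h1, tw_eq, TW_Δ] at h2
    have h3 : W.Δ * (v.den : ℤ) ^ 12 = v.num ^ 12 * (289 * (4 * k + 1) ^ 6) := by
      have : (v.num : ℚ) = v * v.den := (Rat.mul_den_eq_num v).symm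
      refine Int.cast_injective (α := ℚ) ?_
      rw [Int.cast_mul, Int.cast_mul, h2, Int.cast_pow, Int.cast_pow, this, Int.cast_natCast]
      ring
    have h4 : (q : ℤ) ^ 12 ∣ v.num ^ 12 * (289 * (4 * k + 1) ^ 6) :=
      h3 ▸ Dvd.dvd.mul_left (pow_dvd_pow_of_dvd (Int.natCast_dvd_natCast.2 hqd) 12) _
    have h5 : ¬ (q : ℤ) ∣ v.num ^ 12 := fun h => hq.one_lt.ne' (Nat.eq_one_of_dvd_coprimes
      v.reduced (Int.natCast_dvd.1 (hq'.dvd_of_dvd_pow h)) hqd)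
    have h6 := hq'.pow_dvd_of_dvd_mul_left 12 h5 h4
    by_cases h7 : (q : ℤ) ∣ 289
    · have : q = 17 := (Nat.prime_dvd_prime_iff_eq hq (by norm_num)).1
        (hq.dvd_of_dvd_pow (n := 2) (Int.natCast_dvd_natCast.1 h7))
      subst this
      have h8 : (289 : ℤ) * 17 ∣ 289 * (4 * k + 1) ^ 6 := Dvd.dvd.trans (by norm_num) h6
      exact h17 (hq'.dvd_of_dvd_pow ((mul_dvd_mul_iff_left (by norm_num)).1 h8))
    · have h8 := hq'.pow_dvd_of_dvd_mul_left 12 h7 h6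
      rw [show 12 = 2 * 6 from rfl, pow_mul, Int.pow_dvd_pow_iff (by norm_num), sq] at h8
      exact hq'.not_isUnit (hs _ h8)
  have h3 : 1 ≤ |v| := by
    rw [← Rat.coe_int_num_of_den_eq_one hd]
    exact_mod_cast Int.one_le_abs (Rat.num_ne_zero.2 v0)
  rw [h2, abs_mul, abs_pow]
  exact le_mul_of_one_le_left (abs_nonneg _) (one_le_pow₀ h3)

theorem no_four {D : ℚ} (hD : D < 0) (u₁ u₂ u₃ : ℚ)
    (h : Hy (-5 * D / 4) (-D) (3 * D) u₁ u₂ u₃) : u₁ * u₂ * u₃ ≠ 0 := by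
  obtain ⟨h1, h2⟩ := h
  refine mul_ne_zero (mul_ne_zero ?_ ?_) ?_ <;> rintro rfl
  · have : IsSquare (17 : ℚ) := ⟨u₃ / u₂, by
      have : u₂ ≠ 0 := by
        rintro rfl
        linarith
      field_simp
      linarith⟩
    norm_num at this
  · nlinarith [sq_nonneg u₁]
  · nlinarith [sq_nonneg u₁]

variable {p : ℕ} [Fact p.Prime]

theorem nint {z : ℤ} (h : ¬ (p : ℤ) ∣ z) : ‖(z : ℚ_[p])‖ = 1 :=
  le_antisymm (Padic.norm_int_le_one z) (not_lt.1 fun e => h (Padic.norm_intCast_lt_one_iff.1 e))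

theorem val_p_mul {u : ℚ_[p]} (h : ‖u‖ = 1) : ((p : ℚ_[p]) * u).valuation = 1 := by
  rw [Padic.valuation_mul (by exact_mod_cast (Fact.out : p.Prime).ne_zero)
    (by rintro rfl; simp at h), val_unit h, Padic.valuation_p, add_zero]

theorem ntwo (h : p ≠ 2) : ‖(2 : ℚ_[p])‖ = 1 := by
  have := nint (p := p) (z := 2) fun e => h ((Nat.prime_dvd_prime_iff_eq Fact.out
    Nat.prime_two).1 (Int.natCast_dvd_natCast.1 e))
  simpa using this

theorem nfour (h : p ≠ 2) : ‖(4 : ℚ_[p])‖ = 1 := by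
  rw [show (4 : ℚ_[p]) = 2 * 2 by norm_num, norm_mul, ntwo h, one_mul]

theorem tam_tw_17 [Fact (Nat.Prime 17)] {k : ℤ} (h17 : ¬ 17 ∣ 4 * k + 1) :
    tamagawa (tw k) 17 = 2 := by
  have hD := nint (p := 17) h17
  have h4 := nfour (p := 17) (by norm_num)
  refine tam_two ((spl_tw k).bc ℚ_[17]) (ntwo (by norm_num)) (by simp [tw]) ?_ ?_ ?_
  all_goals generalize 4 * k + 1 = D at hD
  · have : algebraMap ℚ ℚ_[17] (-5 * (D : ℚ) / 4) = ((-5 * D : ℤ) : ℚ_[17]) / 4 := by simp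
    rw [this, norm_div, h4, div_one]
    exact Padic.norm_int_le_one _
  · have : algebraMap ℚ ℚ_[17] (-5 * (D : ℚ) / 4) - algebraMap ℚ ℚ_[17] (-(D : ℚ)) = -D / 4 := by
      simp
      ring
    rw [this, norm_div, h4, norm_neg, hD, div_one]
  · have : algebraMap ℚ ℚ_[17] (-5 * (D : ℚ) / 4) - algebraMap ℚ ℚ_[17] (3 * (D : ℚ)) =
        (17 : ℕ) * (-D / 4) := by
      simp
      ring
    rw [this, val_p_mul (by rw [norm_div, h4, norm_neg, hD, div_one])]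

theorem tam_tw_dvd {k : ℤ} (hs : Squarefree (4 * k + 1)) (h17 : ¬ 17 ∣ 4 * k + 1)
    (hp : (p : ℤ) ∣ 4 * k + 1) : tamagawa (tw k) p = 4 := by
  have p2 : p ≠ 2 := by
    rintro rfl
    omega
  have p17 : ¬ (p : ℤ) ∣ 17 := fun e => h17 (by
    have := (Nat.prime_dvd_prime_iff_eq Fact.out (by norm_num)).1 (Int.natCast_dvd_natCast.1 e)
    subst this
    exact hp)
  have h4 := nfour p2
  obtain ⟨D, hD⟩ := hp
  have hD' : ‖(D : ℚ_[p])‖ = 1 := nint fun ⟨c, e⟩ =>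
    (Nat.prime_iff_prime_int.1 Fact.out).not_isUnit (hs p ⟨c, by rw [hD, e, mul_assoc]⟩)
  have h17' : ‖(17 : ℚ_[p])‖ = 1 := by simpa using nint p17
  refine tam_four ((spl_tw k).bc ℚ_[p]) (ntwo p2) (by simp [tw]) ?_ ?_ ?_ ?_
  all_goals rw [hD]
  · have : algebraMap ℚ ℚ_[p] (-5 * ((p * D : ℤ) : ℚ) / 4) = p * ((-5 * D : ℤ) : ℚ_[p]) / 4 := by
      simp
      ring
    rw [this, norm_div, h4, div_one]
    exact nlt_mul' Padic.norm_p_lt_one (Padic.norm_int_le_one _)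
  · have : algebraMap ℚ ℚ_[p] (-5 * ((p * D : ℤ) : ℚ) / 4) -
        algebraMap ℚ ℚ_[p] (-((p * D : ℤ) : ℚ)) = p * (-D / 4) := by
      simp
      ring
    rw [this, val_p_mul (by rw [norm_div, h4, norm_neg, hD', div_one])]
  · have : algebraMap ℚ ℚ_[p] (-5 * ((p * D : ℤ) : ℚ) / 4) -
        algebraMap ℚ ℚ_[p] (3 * ((p * D : ℤ) : ℚ)) = p * (-(17 * D) / 4) := by
      simp
      ring
    rw [this, val_p_mul (by rw [norm_div, h4, norm_neg, norm_mul, hD', h17']; norm_num)]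
  · have : algebraMap ℚ ℚ_[p] (-((p * D : ℤ) : ℚ)) -
        algebraMap ℚ ℚ_[p] (3 * ((p * D : ℤ) : ℚ)) = p * (-(4 * D)) := by
      simp
      ring
    rw [this, val_p_mul (by rw [norm_neg, norm_mul, hD', h4, one_mul])]

theorem tam_tw_good {k : ℤ} (p17 : p ≠ 17) (hp : ¬ (p : ℤ) ∣ 4 * k + 1) :
    tamagawa (tw k) p = 1 := by
  rw [tw_int]
  refine tam_one _ fun h => ?_
  have hq := Nat.prime_iff_prime_int.1 (Fact.out : p.Prime)
  rw [TW_Δ, Int.cast_id] at h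
  rcases hq.dvd_or_dvd h with h | h
  · exact p17 ((Nat.prime_dvd_prime_iff_eq Fact.out (by norm_num)).1
      ((Fact.out : p.Prime).dvd_of_dvd_pow (n := 2) (Int.natCast_dvd_natCast.1 h)))
  · exact hp (hq.dvd_of_dvd_pow h)

theorem tam_tw {k : ℤ} {n : ℕ} (hk : (4 * k + 1).natAbs = n) (hs : Squarefree n)
    (h17 : ¬ 17 ∣ n) : tamagawaProduct (tw k) = 2 * 4 ^ n.primeFactors.card := by
  classical
  have hs' : Squarefree (4 * k + 1) := Int.squarefree_natAbs.1 (hk ▸ hs)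
  have hd (q : ℕ) : (q : ℤ) ∣ 4 * k + 1 ↔ q ∣ n := by rw [Int.natCast_dvd, hk]
  have h17' : ¬ 17 ∣ 4 * k + 1 := fun e => h17 ((hd 17).1 e)
  let g : ℕ → ℕ := fun q => if q = 17 then 2 else if q ∣ n then 4 else 1
  have e (q : Nat.Primes) : (haveI : Fact (q : ℕ).Prime := ⟨q.2⟩; tamagawa (tw k) q) = g q := by
    obtain ⟨q, hq⟩ := q
    have : Fact q.Prime := ⟨hq⟩
    simp only [g]
    split_ifs with h1 h2
    · subst h1
      exact tam_tw_17 h17'
    · exact tam_tw_dvd hs' h17' ((hd q).2 h2)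
    · exact tam_tw_good h1 fun e => h2 ((hd q).1 e)
  have m : 17 ∉ n.primeFactors := fun e => h17 (Nat.dvd_of_mem_primeFactors e)
  rw [tamagawaProduct, finprod_congr e, finprod_eq_prod_of_mulSupport_subset
    (s := (insert 17 n.primeFactors).subtype Nat.Prime) (fun q : Nat.Primes => g q) ?_]
  · refine (Finset.prod_subtype_of_mem g fun x hx => ?_).trans ?_
    · rcases Finset.mem_insert.1 hx with rfl | hx
      exacts [by norm_num, Nat.prime_of_mem_primeFactors hx]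
    · rw [Finset.prod_insert m, ← Finset.prod_const]
      congr 1
      refine Finset.prod_congr rfl fun q hq => ?_
      simp only [g]
      rw [if_neg (by rintro rfl; exact m hq), if_pos (Nat.dvd_of_mem_primeFactors hq)]
  · intro q hq
    refine Finset.mem_coe.2 (Finset.mem_subtype.2 ?_)
    rw [Finset.mem_insert, Nat.mem_primeFactors]
    by_contra hc
    push Not at hc
    refine hq ?_
    simp only [g]
    rw [if_neg hc.1, if_neg fun e => hs.ne_zero (hc.2 q.2 e)]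

end Vale.Agent.P014F
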