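import Vale.Agent.P014F.Loc
import Vale.Agent.P014F.Tw
import Vale.Agent.P017.H185.Crit

/-!
# Linear algebra over the field with two elements and expansion of quadratic characters
-/

namespace Vale.Agent.P014F

open scoped Classical

section Lin

variable {P : Type} [Fintype P] [DecidableEq P] {r : P → P → ZMod 2} {μ ν : P → ZMod 2}

theorem lin_dual (hr : ∀ p q, r q p = r p q + μ p * μ q + if p = q then μ p else 0)
    (hν : ∑ p, ν p = 1)
    (hK : ∀ x : P → ZMod 2, ∑ q, μ q * x q = 0 → (∀ p, ∑ q, r p q * (x q + x p) = μ p * x p) →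
      x = 0) (y : P → ZMod 2) (h1 : ∑ q, ν q * y q = 0)
    (h2 : ∀ p, ∑ q, r p q * (y q + y p) = 0) : y = 0 := by
  let N : Matrix P P (ZMod 2) := fun p q => r q p + (if p = q then ∑ s, r p s else 0) + ν p * μ q
  have e (x : P → ZMod 2) (p : P) : N.mulVec x p =
      ∑ q, r q p * x q + (∑ s, r p s) * x p + ν p * ∑ q, μ q * x q := by
    simp only [N, Matrix.mulVec, dotProduct, add_mul, Finset.sum_add_distrib, ite_mul, zero_mul,
      Finset.sum_ite_eq, Finset.mem_univ, if_true, Finset.mul_sum, mul_assoc]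
  have hN : Function.Injective N.mulVec := by
    refine (injective_iff_map_eq_zero N.mulVecLin).2 fun x hx => ?_
    have hx' (p : P) : N.mulVec x p = 0 := congrFun hx p
    have s := Finset.sum_eq_zero (s := Finset.univ) fun p _ => hx' p
    simp only [e, Finset.sum_add_distrib] at s
    rw [Finset.sum_comm, ← Finset.sum_mul, hν, one_mul] at s
    simp only [← Finset.sum_mul] at s
    rw [two_z, zero_add] at s
    refine hK x s fun p => ?_
    have := hx' p
    rw [e, s, mul_zero, add_zero] at this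
    simp only [fun q => hr p q, add_mul, Finset.sum_add_distrib, ite_mul, zero_mul,
      Finset.sum_ite_eq, Finset.mem_univ, if_true, mul_assoc, ← Finset.mul_sum, s] at this
    simp only [mul_add, Finset.sum_add_distrib, ← Finset.sum_mul]
    linear_combination this - two_z (μ p * x p)
  rw [Matrix.mulVec_injective_iff_isUnit, ← Matrix.vecMul_injective_iff_isUnit] at hN
  refine hN (funext fun q => ?_)
  beta_reduce
  rw [Matrix.zero_vecMul]
  have := h2 q
  simp only [mul_add, Finset.sum_add_distrib, ← Finset.sum_mul] at this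
  simp only [N, Matrix.vecMul, dotProduct, mul_add, Finset.sum_add_distrib, mul_ite, mul_zero,
    Finset.sum_ite_eq', Finset.mem_univ, if_true, ← mul_assoc, ← Finset.sum_mul, Pi.zero_apply]
  simp only [mul_comm (y _)]
  rw [this, h1, zero_mul, zero_add]

omit [DecidableEq P] in
theorem single_zero {μ z : P → ZMod 2} {p₀ : P} (h : ∀ p, p ≠ p₀ → μ p = 0)
    (h1 : ∑ q, μ q * z q = 0) (p : P) : μ p * z p = 0 := by
  by_cases e : p = p₀
  · rwa [Finset.sum_eq_single p (fun q _ hq => by rw [h q (e ▸ hq), zero_mul]) (by simp)] at h1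
  · rw [h p e, zero_mul]

theorem lin_main (hr : ∀ p q, r q p = r p q + μ p * μ q + if p = q then μ p else 0)
    (hν : ∑ p, ν p = 1)
    (hK : ∀ x : P → ZMod 2, ∑ q, μ q * x q = 0 → (∀ p, ∑ q, r p q * (x q + x p) = μ p * x p) →
      x = 0) (hF : (∃ p₀, ∀ p, p ≠ p₀ → μ p = 0) ∨ ∃ p₀, ∀ p, p ≠ p₀ → ν p = 0)
    {y z : P → ZMod 2} (h1 : ∀ p, ∑ q, r p q * (y q + y p) = μ p * z p)
    (h2 : ∀ p, ∑ q, r p q * (z q + z p) = μ p * z p + ν p * y p) (h3 : ∑ q, μ q * z q = 0)
    (h4 : ∑ q, ν q * y q = 0) : y = 0 ∧ z = 0 := by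
  rcases hF with ⟨p₀, h⟩ | ⟨p₀, h⟩
  · have hy := lin_dual hr hν hK y h4 fun p => by rw [h1, single_zero h h3]
    exact ⟨hy, hK z h3 fun p => by rw [h2, hy, Pi.zero_apply, mul_zero, add_zero]⟩
  · have hz := hK z h3 fun p => by rw [h2, single_zero h h4, add_zero]
    exact ⟨lin_dual hr hν hK y h4 fun p => by rw [h1, hz, Pi.zero_apply, mul_zero], hz⟩

end Lin

/-- the indicator of a proposition -/
noncomputable def ind (c : Prop) : ZMod 2 := if c then 1 else 0

theorem ind_iff {c d : Prop} (h : ind c + ind d = 0) : c ↔ d := by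
  unfold ind at h
  by_cases h1 : c <;> by_cases h2 : d <;> simp [h1, h2] at h ⊢

section Expand

variable {F : Type} [Field F] {χ : F → ZMod 2}

theorem Ad.prod (h : Ad χ) {ι : Type} (s : Finset ι) (f : ι → F) (hf : ∀ i, i ∈ s → f i ≠ 0) :
    χ (∏ i ∈ s, f i) = ∑ i ∈ s, χ (f i) := by
  induction s using Finset.induction_on with
  | empty => simpa using h.one
  | insert a s ha ih =>
    have hs : ∀ i, i ∈ s → f i ≠ 0 := fun i hi => hf i (Finset.mem_insert_of_mem hi)
    rw [Finset.prod_insert ha, Finset.sum_insert ha, h _ _ (hf a (Finset.mem_insert_self _ _))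
      (Finset.prod_ne_zero_iff.2 hs), ih hs]

variable [CharZero F]

theorem Ad.expand (h : Ad χ) {b : ℤ} (hb : Squarefree b) (T : Finset ℕ)
    (hT : ∀ q : ℕ, q.Prime → (q : ℤ) ∣ b → q ∈ T) (hT' : ∀ q ∈ T, q.Prime) :
    χ b = χ (-1) * ind (b < 0) + ∑ q ∈ T, χ q * ind ((q : ℤ) ∣ b) := by
  have hm := Int.squarefree_natAbs.2 hb
  have e1 : χ (b.natAbs : F) = ∑ q ∈ T, χ q * ind ((q : ℤ) ∣ b) := by
    rw [← Nat.prod_primeFactors_of_squarefree hm, Nat.cast_prod, h.prod _ _ fun q hq => by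
      exact_mod_cast (Nat.prime_of_mem_primeFactors hq).ne_zero]
    simp only [ind, mul_ite, mul_one, mul_zero]
    rw [← Finset.sum_filter]
    refine Finset.sum_congr (Finset.ext fun q => ?_) fun _ _ => rfl
    rw [Finset.mem_filter, Nat.mem_primeFactors, ← Int.natCast_dvd]
    exact ⟨fun e => ⟨hT q e.1 e.2.1, e.2.1⟩, fun e => ⟨hT' q e.1, e.2, hm.ne_zero⟩⟩
  rw [← e1, ind]
  split_ifs with h0
  · rw [mul_one, ← h _ _ (by norm_num) (by exact_mod_cast hm.ne_zero), ← Int.cast_natCast,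
      Int.ofNat_natAbs_of_nonpos h0.le]
    simp
  · rw [mul_zero, zero_add, ← Int.cast_natCast, Int.natAbs_of_nonneg (not_lt.1 h0)]

end Expand

theorem vz_sqf {p : ℕ} [Fact p.Prime] {b : ℤ} (hb : Squarefree b) :
    vz (b : ℚ_[p]) = ind ((p : ℤ) ∣ b) := by
  unfold ind
  split_ifs with h
  · obtain ⟨c, rfl⟩ := h
    rw [Int.cast_mul, Int.cast_natCast]
    exact vz_one (val_p_mul (nint fun ⟨d, e⟩ => (Nat.prime_iff_prime_int.1 Fact.out).not_isUnit
      (hb p ⟨d, by rw [e, mul_assoc]⟩)))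
  · exact vz_unit (nint h)

theorem natAbs_eq_of {b : ℤ} (hb : Squarefree b) {m : ℕ} (hm : Squarefree m)
    (h : ∀ p : ℕ, p.Prime → ((p : ℤ) ∣ b ↔ p ∣ m)) : b.natAbs = m :=
  (Nat.Squarefree.ext_iff (Int.squarefree_natAbs.2 hb) hm).2 fun p hp => by
    rw [← h p hp, Int.natCast_dvd]

end Vale.Agent.P014F
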