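import Vale.Agent.P014F.Chr

/-!
# The local images of the Kummer maps
-/

namespace Vale.Agent.P014F

open WeierstrassCurve
open scoped Classical

variable {p : ℕ} [Fact p.Prime] {W : WeierstrassCurve ℚ_[p]} {r₁ r₂ r₃ : ℚ_[p]}

theorem ne_of_norm {a : ℚ_[p]} (h : 1 ≤ ‖a‖) : a ≠ 0 := by
  rintro rfl
  rw [norm_zero] at h
  linarith

theorem loc_good (S : Spl W r₁ r₂ r₃) (h12 : ‖r₁ - r₂‖ = 1) (h13 : ‖r₁ - r₃‖ = 1)
    (P : W.toAffine.Point) : S.hom ad_vz P = 0 := by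
  rcases S.cases P with rfl | ⟨x, η, h, rfl⟩
  · exact map_zero _
  have e2 : x - r₂ = x - r₁ + (r₁ - r₂) := by ring
  have e3 : x - r₃ = x - r₁ + (r₁ - r₃) := by ring
  rcases lt_trichotomy ‖x - r₁‖ 1 with hx | hx | hx
  · have a2 : ‖x - r₂‖ = 1 := by rw [e2, add_comm, norm_add_left (h12 ▸ hx), h12]
    have a3 : ‖x - r₃‖ = 1 := by rw [e3, add_comm, norm_add_left (h13 ▸ hx), h13]
    rw [S.hom_two ad_vz h (ne_of_norm a2.ge) (ne_of_norm a3.ge), vz_unit a2, vz_unit a3, add_zero]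
  · rw [S.hom_ne ad_vz h (sub_ne_zero.1 (ne_of_norm hx.ge)), vz_unit hx]
  · have a2 : ‖x - r₂‖ = ‖x - r₁‖ := by rw [e2, norm_add_left (h12 ▸ hx)]
    have a3 : ‖x - r₃‖ = ‖x - r₁‖ := by rw [e3, norm_add_left (h13 ▸ hx)]
    have n2 := ne_of_norm (a2 ▸ hx.le)
    rw [S.hom_two ad_vz h n2 (ne_of_norm (a3 ▸ hx.le)), vz_congr n2 (a2.trans a3.symm), two_z]

theorem vz_one {a : ℚ_[p]} (h : a.valuation = 1) : vz a = 1 := by rw [vz, h, Int.cast_one]

theorem loc_mult (S : Spl W r₁ r₂ r₃) (h12 : ‖r₁ - r₂‖ = 1) (h13 : (r₁ - r₃).valuation = 1)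
    (P : W.toAffine.Point) :
    S.swap12.hom (ad_psi (gL p)) P = S.hom ad_vz P * psi (gL p) (r₁ - r₂) := by
  have n12 := sub_ne_zero.2 S.n12
  have n13 := sub_ne_zero.2 S.n13
  have m13 : ‖r₁ - r₃‖ < 1 := norm_lt_of_val (by omega)
  have t1 : S.hom ad_vz (pt W r₁ 0) = 1 := by
    rw [S.hom_two ad_vz (by ring) n12 n13, vz_unit h12, vz_one h13, zero_add]
  rw [← S.swap12.hom_ne (ad_psi (gL p)) (x := r₁) (η := 0) (by ring) S.n12]
  refine comb_one _ _ (fun P hP => ?_) t1 P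
  rcases S.cases P with rfl | ⟨x, η, h, rfl⟩
  · exact map_zero _
  have e2 : x - r₂ = x - r₁ + (r₁ - r₂) := by ring
  have e3 : x - r₃ = x - r₁ + (r₁ - r₃) := by ring
  rcases lt_or_ge ‖x - r₁‖ 1 with hx | hx
  · exfalso
    have a2 : ‖x - r₂‖ = 1 := by rw [e2, add_comm, norm_add_left (h12 ▸ hx), h12]
    have k : x - r₃ ≠ 0 ∧ (x - r₃).valuation = 1 := by
      by_cases hr : x = r₁
      · rw [hr]
        exact ⟨n13, h13⟩
      · rw [S.hom_ne ad_vz h hr, vz_zero] at hP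
        have v1 := val_pos (sub_ne_zero.2 hr) hx
        have := val_add n13 (sub_ne_zero.2 hr) (by omega)
        rwa [add_comm, ← e3, h13] at this
    rw [S.hom_two ad_vz h (ne_of_norm a2.ge) k.1, vz_unit a2, vz_one k.2] at hP
    exact absurd hP (by decide)
  · have a3 : ‖x - r₃‖ = ‖x - r₁‖ := by rw [e3, norm_add_left (m13.trans_le hx)]
    rw [S.swap12.hom_two _ (by rw [h]; ring) (ne_of_norm hx) (ne_of_norm (a3 ▸ hx)), e3,
      psiL_add (m13.trans_le hx), two_z]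

theorem loc_add (S : Spl W r₁ r₂ r₃) (h12 : (r₁ - r₂).valuation = 1)
    (h13 : (r₁ - r₃).valuation = 1) (h23 : (r₂ - r₃).valuation = 1) (P : W.toAffine.Point) :
    S.hom (ad_psi (gL p)) P = S.hom ad_vz P * psi (gL p) (r₂ - r₁) +
      S.swap12.hom ad_vz P * (psi (gL p) (r₁ - r₂) + psi (gL p) (r₁ - r₃)) := by
  have n12 := sub_ne_zero.2 S.n12
  have n21 := sub_ne_zero.2 S.n12.symm
  have n13 := sub_ne_zero.2 S.n13
  have n23 := sub_ne_zero.2 S.n23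
  have m12 : ‖r₁ - r₂‖ < 1 := norm_lt_of_val (by omega)
  have m23 : ‖r₂ - r₃‖ < 1 := norm_lt_of_val (by omega)
  have h21 : (r₂ - r₁).valuation = 1 := by rw [← neg_sub, val_neg, h12]
  rw [← S.hom_ne (ad_psi (gL p)) (x := r₂) (η := 0) (by ring) S.n12.symm,
    ← S.hom_two (ad_psi (gL p)) (x := r₁) (η := 0) (by ring) n12 n13]
  refine comb_two _ _ _ (fun P h1 h2 => ?_) ?_ ?_ ?_ ?_ P
  · rcases S.cases P with rfl | ⟨x, η, h, rfl⟩
    · exact map_zero _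
    have h' : η ^ 2 = (x - r₂) * (x - r₁) * (x - r₃) := by rw [h]; ring
    have e2 : x - r₂ = x - r₁ + (r₁ - r₂) := by ring
    have e3 : x - r₃ = x - r₂ + (r₂ - r₃) := by ring
    rcases lt_or_ge ‖x - r₂‖ 1 with hx | hx
    · exfalso
      have a1 : ‖x - r₁‖ < 1 := by
        have := nlt_sub hx m12
        rwa [show x - r₂ - (r₁ - r₂) = x - r₁ by ring] at this
      by_cases b1 : x = r₁
      · rw [S.swap12.hom_ne ad_vz h' (b1 ▸ S.n12), b1, vz_one h12] at h2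
        exact absurd h2 (by decide)
      by_cases b2 : x = r₂
      · rw [S.hom_ne ad_vz h b1, b2, vz_one h21] at h1
        exact absurd h1 (by decide)
      rw [S.hom_ne ad_vz h b1, vz_zero] at h1
      rw [S.swap12.hom_ne ad_vz h' b2, vz_zero] at h2
      have v1 := val_pos (sub_ne_zero.2 b1) a1
      have v2 := val_pos (sub_ne_zero.2 b2) hx
      have := (val_add n12 (sub_ne_zero.2 b1) (by omega)).2
      rw [add_comm, ← e2] at this
      omega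
    · have a3 : ‖x - r₃‖ = ‖x - r₂‖ := by rw [e3, norm_add_left (m23.trans_le hx)]
      rw [S.hom_two _ h (ne_of_norm hx) (ne_of_norm (a3 ▸ hx)), e3,
        psiL_add (m23.trans_le hx), two_z]
  · rw [S.hom_two ad_vz (by ring) n12 n13, vz_one h12, vz_one h13, two_z]
  · rw [S.swap12.hom_ne ad_vz (by ring) S.n12, vz_one h12]
  · rw [S.hom_ne ad_vz (by ring) S.n12.symm, vz_one h21]
  · rw [S.swap12.hom_two ad_vz (by ring) n21 n23, vz_one h21, vz_one h23, two_z]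

theorem loc_two {W : WeierstrassCurve ℚ_[2]} {r₁ r₂ r₃ : ℚ_[2]} (S : Spl W r₁ r₂ r₃)
    (h21 : (r₂ - r₁).valuation = 0) (hψ : psi g4 (r₂ - r₁) = 0) (h23 : (r₂ - r₃).valuation = 4)
    (P : W.toAffine.Point) :
    S.hom ad_vz P = 0 ∧ S.hom (ad_psi g4) P = 0 ∧ S.swap12.hom ad_vz P = 0 := by
  rcases S.cases P with rfl | ⟨x, η, h, rfl⟩
  · exact ⟨map_zero _, map_zero _, map_zero _⟩
  have h' : η ^ 2 = (x - r₂) * (x - r₁) * (x - r₃) := by rw [h]; ring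
  have n21 := sub_ne_zero.2 S.n12.symm
  have n23 := sub_ne_zero.2 S.n23
  have e1 : x - r₁ = r₂ - r₁ + (x - r₂) := by ring
  have e3 : x - r₃ = x - r₂ + (r₂ - r₃) := by ring
  by_cases b2 : x = r₂
  · subst b2
    rw [S.hom_ne _ h S.n12.symm, S.hom_ne _ h S.n12.symm, S.swap12.hom_two _ h' n21 n23, hψ,
      vz_zero.2 (by omega), vz_zero.2 (by omega)]
    exact ⟨rfl, rfl, rfl⟩
  have Y0 := sub_ne_zero.2 b2
  rw [S.swap12.hom_ne _ h' b2]
  rcases lt_or_ge (x - r₂).valuation 2 with hv | hv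
  · have a3 := val_add Y0 n23 (by omega)
    have c3 := psi4_add Y0 n23 (by omega)
    rw [← e3] at a3 c3
    rw [if_neg (by omega), add_zero] at c3
    have d1 : S.hom ad_vz (pt W x η) = 0 := by
      rw [S.hom_two _ h Y0 a3.1, vz, vz, a3.2, two_z]
    have d2 : S.hom (ad_psi g4) (pt W x η) = 0 := by rw [S.hom_two _ h Y0 a3.1, c3, two_z]
    refine ⟨d1, d2, ?_⟩
    rcases lt_trichotomy (x - r₂).valuation 0 with hw | hw | hw
    · have a1 := val_add Y0 n21 (by omega)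
      rw [add_comm, ← e1] at a1
      rwa [S.hom_ne _ h (sub_ne_zero.1 a1.1), vz, a1.2] at d1
    · exact vz_zero.2 (by omega)
    · have a1 := val_add n21 Y0 (by omega)
      have c1 := psi4_add n21 Y0 (by omega)
      rw [← e1] at a1 c1
      rw [S.hom_ne _ h (sub_ne_zero.1 a1.1), c1, hψ, if_pos (by omega)] at d2
      exact absurd d2 (by decide)
  · have a1 := val_add n21 Y0 (by omega)
    have c1 := psi4_add n21 Y0 (by omega)
    rw [← e1] at a1 c1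
    rw [if_neg (by omega), add_zero, hψ] at c1
    have d1 : vz (x - r₁) = 0 := vz_zero.2 (by omega)
    have d2 : S.hom (ad_psi g4) (pt W x η) = 0 := by rw [S.hom_ne _ h (sub_ne_zero.1 a1.1), c1]
    refine ⟨by rw [S.hom_ne _ h (sub_ne_zero.1 a1.1), d1], d2, ?_⟩
    rcases lt_or_ge 4 (x - r₂).valuation with hw | hw
    · have a3 := val_add n23 Y0 (by omega)
      rw [add_comm, ← e3] at a3
      rw [← S.swap12.hom_ne ad_vz h' b2, S.swap12.hom_two _ h' a1.1 a3.1, d1,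
        vz_zero.2 (by omega), add_zero]
    · by_cases hw' : (x - r₂).valuation = 3
      · have a3 := val_add Y0 n23 (by omega)
        have c3 := psi4_add Y0 n23 (by omega)
        rw [← e3] at a3 c3
        rw [S.hom_two _ h Y0 a3.1, c3, if_pos (by omega), ← add_assoc, two_z] at d2
        exact absurd d2 (by decide)
      · exact vz_zero.2 (by omega)

theorem loc_real {b₁ b₂ : ℤ} (h₁ : b₁ ≠ 0) (h₂ : b₂ ≠ 0) {d₂ d₃ : ℝ} (h2 : d₂ < 0) (h3 : d₃ < d₂)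
    (h : Sol ℝ b₁ b₂ d₂ d₃) : 0 < b₁ * b₂ := by
  obtain ⟨z₀, z₁, z₂, z₃, h0, e1, e2⟩ := h
  by_contra hc
  have hc' : (b₁ : ℝ) * b₂ < 0 := by
    exact_mod_cast lt_of_le_of_ne (not_lt.1 hc) (mul_ne_zero h₁ h₂)
  have s0 := sq_nonneg z₀
  have s1 := sq_nonneg z₁
  have s2 := sq_nonneg z₂
  have s3 := sq_nonneg z₃
  have u3 : (b₁ : ℝ) * b₂ * z₃ ^ 2 ≤ 0 := mul_nonpos_of_nonpos_of_nonneg hc'.le s3
  have w1 : d₂ * z₀ ^ 2 ≤ 0 := mul_nonpos_of_nonpos_of_nonneg h2.le s0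
  have w2 : (d₃ - d₂) * z₀ ^ 2 ≤ 0 := mul_nonpos_of_nonpos_of_nonneg (by linarith) s0
  have z {c z : ℝ} (hc : c ≠ 0) (h : c * z ^ 2 = 0) : z = 0 :=
    pow_eq_zero_iff two_ne_zero |>.1 ((mul_eq_zero.1 h).resolve_left hc)
  have n₁ : (b₁ : ℝ) ≠ 0 := by exact_mod_cast h₁
  have n₂ : (b₂ : ℝ) ≠ 0 := by exact_mod_cast h₂
  have k : (b₂ : ℝ) * z₂ ^ 2 = 0 ∧ (b₁ : ℝ) * b₂ * z₃ ^ 2 = 0 ∧ (d₃ - d₂) * z₀ ^ 2 = 0 := by
    rcases mul_neg_iff.1 hc' with ⟨a, -⟩ | ⟨-, a⟩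
    · have := mul_nonneg a.le s1
      exact ⟨by linarith, by linarith, by linarith⟩
    · have := mul_nonneg a.le s2
      exact ⟨by linarith, by linarith, by linarith⟩
  have y0 := z (by linarith) k.2.2
  refine h0 ⟨y0, z n₁ ?_, z n₂ k.1, z (mul_ne_zero n₁ n₂) k.2.1⟩
  rw [y0] at e1
  linarith [k.1]

end Vale.Agent.P014F
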