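import Vale.Agent.P014F.Lin

/-!
# The two-Selmer group of the twists
-/

namespace Vale.Agent.P014F

open scoped Classical
open Vale.Agent.P017.H185 NumberField

variable {n : ℕ}

instance factP (q : n.primeFactors) : Fact (q : ℕ).Prime := ⟨Nat.prime_of_mem_primeFactors q.2⟩

instance fact17 : Fact (Nat.Prime 17) := ⟨by norm_num⟩

/-- the symbols between the prime factors -/
noncomputable def rr (p q : n.primeFactors) : ZMod 2 := psi (gL p) ((q : ℕ) : ℚ_[p])

/-- the symbols of `-1` -/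
noncomputable def mu (p : n.primeFactors) : ZMod 2 := psi (gL p) (-1 : ℚ_[p])

/-- the symbols of `17` -/
noncomputable def nu (p : n.primeFactors) : ZMod 2 := psi (gL p) (17 : ℚ_[p])

theorem dvdP (p : n.primeFactors) : (p : ℕ) ∣ n := Nat.dvd_of_mem_primeFactors p.2

theorem oddP (hn : n % 4 = 3) (p : n.primeFactors) : Odd (p : ℕ) :=
  Odd.of_dvd_nat (Nat.odd_iff.2 (by omega)) (dvdP p)

theorem ndvd {p q : ℕ} (hp : p.Prime) (hq : q.Prime) (h : p ≠ q) : ¬ (p : ℤ) ∣ (q : ℤ) :=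
  fun e => h ((Nat.prime_dvd_prime_iff_eq hp hq).1 (Int.natCast_dvd_natCast.1 e))

theorem psiL_nat {p : ℕ} [Fact p.Prime] {q : ℕ} (hq : q.Prime) (h : p ≠ q) :
    psi (gL p) (q : ℚ_[p]) = tz (jacobiSym q p) := by
  rw [← psiL_int (ndvd Fact.out hq h), Int.cast_natCast]

theorem mu_eq (hn : n % 4 = 3) (p : n.primeFactors) : mu p = tz (ZMod.χ₄ (p : ℕ)) := by
  have := psiL_int (p := p) (z := -1) fun e => (Nat.prime_iff_prime_int.1 Fact.out).not_isUnit
    (isUnit_of_dvd_unit e isUnit_one.neg)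
  rw [jacobiSym.at_neg_one (oddP hn p), Int.cast_neg, Int.cast_one] at this
  exact this

theorem mu_one (hn : n % 4 = 3) {p : n.primeFactors} (h : (p : ℕ) % 4 = 1) : mu p = 0 := by
  rw [mu_eq hn, ZMod.χ₄_nat_one_mod_four h]
  rfl

theorem mu_three (hn : n % 4 = 3) {p : n.primeFactors} (h : (p : ℕ) % 4 = 3) : mu p = 1 := by
  rw [mu_eq hn, ZMod.χ₄_nat_three_mod_four h]
  rfl

theorem psi4_P (hn : n % 4 = 3) (p : n.primeFactors) : psi g4 ((p : ℕ) : ℚ_[2]) = mu p := by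
  have h := Nat.odd_iff.1 (oddP hn p)
  rw [mu_eq hn, ← Int.cast_natCast, psi4_int (by omega), Int.cast_natCast]

theorem nu_eq (h17 : ¬ 17 ∣ n) (hn : n % 4 = 3) (p : n.primeFactors) :
    nu p = tz (jacobiSym (p : ℕ) 17) := by
  have := psiL_nat (p := p) (q := 17) (by norm_num) fun e => h17 (e ▸ dvdP p)
  rw [jacobiSym.quadratic_reciprocity_one_mod_four (by norm_num) (oddP hn p)] at this
  exact this

theorem psi17_P (h17 : ¬ 17 ∣ n) (hn : n % 4 = 3) (p : n.primeFactors) :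
    psi (gL 17) ((p : ℕ) : ℚ_[17]) = nu p := by
  rw [nu_eq h17 hn, psiL_nat (p := 17) (q := p) Fact.out fun e => h17 (e ▸ dvdP p)]

theorem rr_symm (hn : n % 4 = 3) (p q : n.primeFactors) :
    rr q p = rr p q + mu p * mu q + if p = q then mu p else 0 := by
  split_ifs with h
  · subst h
    have k : ∀ a b : ZMod 2, a = a + b * b + b := by decide
    exact k _ _
  have h' : (p : ℕ) ≠ q := fun e => h (Subtype.ext e)
  rw [rr, rr, psiL_nat Fact.out h', psiL_nat Fact.out h'.symm, add_zero]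
  have hp := Nat.odd_iff.1 (oddP hn p)
  have hq := Nat.odd_iff.1 (oddP hn q)
  rcases (show (p : ℕ) % 4 = 1 ∨ (p : ℕ) % 4 = 3 by omega) with a | a
  · rw [mu_one hn a, zero_mul, add_zero,
      jacobiSym.quadratic_reciprocity_one_mod_four a (oddP hn q)]
  rcases (show (q : ℕ) % 4 = 1 ∨ (q : ℕ) % 4 = 3 by omega) with b | b
  · rw [mu_one hn b, mul_zero, add_zero,
      jacobiSym.quadratic_reciprocity_one_mod_four b (oddP hn p)]
  rw [mu_three hn a, mu_three hn b, jacobiSym.quadratic_reciprocity_three_mod_four a b]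
  rcases jacobiSym.eq_one_or_neg_one (a := (q : ℕ)) (b := p) (by
    rw [Int.gcd_natCast_natCast]
    exact (Nat.coprime_primes Fact.out Fact.out).2 h'.symm) with e | e <;> rw [e] <;> decide

section Expand

variable {F : Type} [Field F] [CharZero F] {χ : F → ZMod 2}

theorem Ad.expandP (h : Ad χ) (h17 : ¬ 17 ∣ n) (hn : n ≠ 0) {b : ℤ} (hb : Squarefree b)
    (hT : ∀ q : ℕ, q.Prime → (q : ℤ) ∣ b → q = 17 ∨ q ∣ n) :
    χ b = χ (-1) * ind (b < 0) + χ 17 * ind (17 ∣ b) +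
      ∑ q : n.primeFactors, χ (q : ℕ) * ind (((q : ℕ) : ℤ) ∣ b) := by
  rw [h.expand hb (insert 17 n.primeFactors) (fun q hq e => ?_) (fun q hq => ?_),
    Finset.sum_insert fun e => h17 (Nat.dvd_of_mem_primeFactors e),
    Finset.sum_coe_sort _ fun q : ℕ => χ q * ind ((q : ℤ) ∣ b), add_assoc]
  · rfl
  · rw [Finset.mem_insert, Nat.mem_primeFactors]
    exact (hT q hq e).imp id fun e => ⟨hq, e, hn⟩
  · rcases Finset.mem_insert.1 hq with rfl | hq
    exacts [by norm_num, Nat.prime_of_mem_primeFactors hq]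

theorem Ad.expand_n (h : Ad χ) (hn : Squarefree n) : χ n = ∑ q : n.primeFactors, χ (q : ℕ) := by
  rw [Finset.sum_coe_sort _ fun q : ℕ => χ q, ← h.prod _ _ fun q hq => by
    exact_mod_cast (Nat.prime_of_mem_primeFactors hq).ne_zero, ← Nat.cast_prod,
    Nat.prod_primeFactors_of_squarefree hn]

theorem Ad.filter (h : Ad χ) (x : n.primeFactors → ZMod 2) :
    χ ((∏ q ∈ Finset.univ.filter fun q : n.primeFactors => x q = 1, (q : ℕ) : ℕ) : F) =
      ∑ q : n.primeFactors, χ (q : ℕ) * x q := by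
  rw [Nat.cast_prod, h.prod _ _ fun q _ => by exact_mod_cast (Fact.out : (q : ℕ).Prime).ne_zero,
    Finset.sum_filter]
  refine Finset.sum_congr rfl fun q _ => ?_
  have k : ∀ a b : ZMod 2, (if b = 1 then a else 0) = a * b := by decide
  convert k _ _

end Expand

theorem dvd_filter {x : n.primeFactors → ZMod 2} {p : ℕ} (hp : p.Prime)
    (h : p ∣ ∏ q ∈ Finset.univ.filter fun q : n.primeFactors => x q = 1, (q : ℕ)) :
    ∃ q : n.primeFactors, p = q ∧ x q = 1 := by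
  obtain ⟨q, h1, h2⟩ := hp.prime.exists_mem_finset_dvd h
  exact ⟨q, (Nat.prime_dvd_prime_iff_eq hp Fact.out).1 h2, (Finset.mem_filter.1 h1).2⟩

/-- the kernel of the matrix of Rédei type -/
theorem redei {K : Type} [Field K] [NumberField K] (q : QF K n) (hn : n % 4 = 3)
    (hcl : ∀ c : ClassGroup (𝓞 K), orderOf c ≠ 4) (x : n.primeFactors → ZMod 2)
    (h1 : ∑ q, mu q * x q = 0) (h2 : ∀ p, ∑ q, rr p q * (x q + x p) = mu p * x p) : x = 0 := by
  obtain ⟨d, hd⟩ : ∃ d, d = ∏ q ∈ Finset.univ.filter fun q : n.primeFactors => x q = 1, (q : ℕ) :=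
    ⟨_, rfl⟩
  obtain ⟨d', hd'⟩ : ∃ d, d = ∏ q ∈ Finset.univ.filter fun q : n.primeFactors => x q + 1 = 1,
    (q : ℕ) := ⟨_, rfl⟩
  have k1 : ∀ a : ZMod 2, a + 1 = 1 ↔ ¬ a = 1 := by decide
  have hdd : d * d' = n := by
    rw [hd, hd']
    simp only [k1]
    rw [Finset.prod_filter_mul_prod_filter_not, Finset.prod_coe_sort _ fun q : ℕ => q,
      Nat.prod_primeFactors_of_squarefree q.hd]
  have od : d % 2 = 1 := Nat.odd_iff.1 (Odd.of_dvd_nat (Nat.odd_iff.2 (by omega)) ⟨d', hdd.symm⟩)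
  have d4 : d % 4 = 1 := by
    by_contra hc
    have := (ad_psi g4).filter x
    simp only [psi4_P hn] at this
    rw [h1, ← hd, ← Int.cast_natCast, psi4_int (by omega), Int.cast_natCast,
      ZMod.χ₄_nat_three_mod_four (by omega)] at this
    exact absurd this (by decide)
  have d0 : (d' : ℤ) ≠ 0 := by
    rintro e
    rw [Int.natCast_eq_zero.1 e] at hdd
    omega
  have cop (p : ℕ) (hp : p.Prime) (a : p ∣ d) (b : p ∣ d') : False :=
    hp.prime.not_isUnit (q.hd p (hdd ▸ mul_dvd_mul a b))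
  suffices key : (d : ℤ) = 1 ∨ (-d' : ℤ) = 1 by
    funext p
    by_contra hc
    have k2 : ∀ a : ZMod 2, ¬ a = 0 → a = 1 := by decide
    have : (p : ℕ) ∣ d := hd ▸ Finset.dvd_prod_of_mem _
      (Finset.mem_filter.2 ⟨Finset.mem_univ _, k2 _ hc⟩)
    rw [show d = 1 by omega, Nat.dvd_one] at this
    exact (Fact.out : (p : ℕ).Prime).ne_one this
  refine q.second_trivial hcl (by rw [← hdd]; push_cast; ring) (by omega)
    (fun h => by rcases h with h | h <;> omega) (fun p hp _ h => ?_) fun p hp _ h => ?_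
  · have h' := Int.natCast_dvd_natCast.1 h
    obtain ⟨p, rfl, hx⟩ := dvd_filter hp (hd ▸ h')
    refine ZMod.isSquare_of_jacobiSym_eq_one (tz_zero.1 ?_)
    have := (ad_psi (gL p)).filter fun q => x q + 1
    have e := h2 p
    rw [hx, mul_one] at e
    rw [← psiL_int fun e => cop _ hp h' (Int.natCast_dvd_natCast.1 (dvd_neg.1 e)), Int.cast_neg,
      neg_eq_neg_one_mul, ad_psi _ _ _ (by norm_num) (by exact_mod_cast d0), Int.cast_natCast, hd',
      this]
    exact (congrArg _ e).trans (two_z _)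
  · have h' := Int.natCast_dvd_natCast.1 (dvd_neg.1 h)
    obtain ⟨p, rfl, hx⟩ := dvd_filter (x := fun q => x q + 1) hp (hd' ▸ h')
    refine ZMod.isSquare_of_jacobiSym_eq_one (tz_zero.1 ?_)
    have := (ad_psi (gL p)).filter x
    have e := h2 p
    simp only [add_eq_right.1 hx, add_zero, mul_zero] at e
    rw [← psiL_int fun e => cop _ hp (Int.natCast_dvd_natCast.1 e) h', Int.cast_natCast, hd, this]
    exact e

/-- the curve with roots `0`, `d₂`, `d₃` -/
def cv {F : Type} [Field F] (d₂ d₃ : F) : WeierstrassCurve F := ⟨0, -(d₂ + d₃), 0, d₂ * d₃, 0⟩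

theorem sol_hom {F : Type} [Field F] [CharZero F] [Algebra ℚ F] (hn : n ≠ 0) {b₁ b₂ : ℤ}
    (h₁ : b₁ ≠ 0) (h₂ : b₂ ≠ 0)
    (h : Sol F b₁ b₂ (algebraMap ℚ F (-n / 4)) (algebraMap ℚ F (-17 * n / 4))) :
    ∃ (S : Spl (cv (-n : F) (-(17 * n))) 0 (-n) (-(17 * n))) (P : _),
      ∀ (χ : F → ZMod 2) (hχ : Ad χ), S.hom hχ P = χ b₁ ∧ S.swap12.hom hχ P = χ b₂ := by
  have n0 : (n : F) ≠ 0 := by exact_mod_cast hn
  have S : Spl (cv (-n : F) (-(17 * n))) 0 (-n) (-(17 * n)) :=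
    ⟨by simp only [cv]; ring, by simp only [cv]; ring, by simp only [cv]; ring,
      fun e => n0 (by linear_combination e), fun e => n0 (by linear_combination e / 17),
      fun e => n0 (by linear_combination e / 16)⟩
  refine ⟨S, S.sol_pt h₁ h₂ ?_⟩
  obtain ⟨z₀, z₁, z₂, z₃, h0, e1, e2⟩ := h
  simp only [eq_ratCast] at e1 e2
  push_cast at e1 e2
  exact ⟨z₀ / 2, z₁, z₂, z₃, fun e => h0 ⟨by linear_combination 2 * e.1, e.2⟩,
    by linear_combination e1, by linear_combination e2⟩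

theorem n16 {p : ℕ} [Fact p.Prime] (h : p ≠ 2) : ‖(16 : ℚ_[p])‖ = 1 := by
  rw [show (16 : ℚ_[p]) = 4 * 4 by norm_num, norm_mul, nfour h, one_mul]

theorem nnat {p : ℕ} [Fact p.Prime] {m : ℕ} (h : ¬ p ∣ m) : ‖(m : ℚ_[p])‖ = 1 := by
  rw [← Int.cast_natCast]
  exact nint fun e => h (Int.natCast_dvd_natCast.1 e)

theorem n17 {p : ℕ} [Fact p.Prime] (h : p ≠ 17) : ‖(17 : ℚ_[p])‖ = 1 :=
  nnat (m := 17) fun e => h ((Nat.prime_dvd_prime_iff_eq Fact.out (by norm_num)).1 e)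

theorem ind_zero {c : Prop} (h : ind c = 0) : ¬ c := fun e => by
  rw [ind, if_pos e] at h
  exact absurd h (by decide)

section Conditions

variable {b₁ b₂ : ℤ} (hs : Squarefree n) (hn : n % 4 = 3) (h17 : ¬ 17 ∣ n) (s₁ : Squarefree b₁)
  (s₂ : Squarefree b₂) (h : ∀ (p : ℕ) [Fact p.Prime],
    Sol ℚ_[p] b₁ b₂ (algebraMap ℚ ℚ_[p] (-n / 4)) (algebraMap ℚ ℚ_[p] (-17 * n / 4)))

include hs s₁ s₂ h

theorem cond1 (p : ℕ) (hp : p.Prime) (e : (p : ℤ) ∣ b₁) : p = 17 ∨ p ∣ n := by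
  have := Fact.mk hp
  by_contra hc
  push Not at hc
  obtain ⟨S, P, hP⟩ := sol_hom hs.ne_zero s₁.ne_zero s₂.ne_zero (h p)
  have := loc_good S (by simpa using nnat hc.2) (by simp [n17 hc.1, nnat hc.2]) P
  rw [(hP _ _).1, vz_sqf s₁] at this
  exact ind_zero this e

include hn in
theorem cond2a : psi g4 (b₁ : ℚ_[2]) = 0 ∧ ¬ (2 : ℤ) ∣ b₂ := by
  obtain ⟨S, P, hP⟩ := sol_hom hs.ne_zero s₁.ne_zero s₂.ne_zero (h 2)
  have a : ‖(n : ℚ_[2])‖ = 1 := nnat (by omega)
  have := loc_two S (val_unit (by simpa using a)) ?_ ?_ P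
  · rw [(hP _ _).1, (hP _ _).1, (hP _ _).2, vz_sqf s₂] at this
    exact ⟨this.2.1, ind_zero this.2.2⟩
  · have := psi4_int (z := -n) (by omega)
    rw [ZMod.χ₄_int_one_mod_four (by omega)] at this
    rw [sub_zero]
    exact_mod_cast this
  · rw [show (-n - -(17 * n) : ℚ_[2]) = (2 : ℕ) ^ 4 * n by push_cast; ring,
      Padic.valuation_mul (by norm_num) (ne_of_norm a.ge), Padic.valuation_pow, val_unit a,
      Padic.valuation_p]
    norm_num

include hn in
theorem cond2 (p : ℕ) (hp : p.Prime) (e : (p : ℤ) ∣ b₂) : p ∣ n := by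
  have := Fact.mk hp
  by_contra hc
  by_cases p2 : p = 2
  · subst p2
    exact (cond2a hs hn s₁ s₂ h).2 e
  obtain ⟨S, P, hP⟩ := sol_hom hs.ne_zero s₁.ne_zero s₂.ne_zero (h p)
  have := loc_good S.swap12 (by simpa using nnat hc) (by
    rw [show (-n - -(17 * n) : ℚ_[p]) = 16 * n by ring, norm_mul, n16 p2, nnat hc, one_mul]) P
  rw [(hP _ _).2, vz_sqf s₂] at this
  exact ind_zero this e

include h17 in
theorem cond17 : psi (gL 17) (b₂ : ℚ_[17]) = ind (17 ∣ b₁) * psi (gL 17) (n : ℚ_[17]) := by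
  obtain ⟨S, P, hP⟩ := sol_hom hs.ne_zero s₁.ne_zero s₂.ne_zero (h 17)
  have := loc_mult S (by simpa using nnat h17) (by
    rw [zero_sub, neg_neg]
    exact val_p_mul (p := 17) (nnat h17)) P
  rwa [(hP _ _).1, (hP _ _).2, vz_sqf s₁, zero_sub, neg_neg] at this

include hn h17 in
theorem condP (p : n.primeFactors) :
    psi (gL p) (b₁ : ℚ_[p]) = ind (((p : ℕ) : ℤ) ∣ b₁) * (mu p + ∑ q, rr p q) +
      ind (((p : ℕ) : ℤ) ∣ b₂) * nu p ∧
    psi (gL p) (b₂ : ℚ_[p]) = ind (((p : ℕ) : ℤ) ∣ b₂) * (∑ q, rr p q) +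
      ind (((p : ℕ) : ℤ) ∣ b₁) * mu p := by
  obtain ⟨S, P, hP⟩ := sol_hom hs.ne_zero s₁.ne_zero s₂.ne_zero (h p)
  have p2 : (p : ℕ) ≠ 2 := fun e => by
    have := Nat.odd_iff.1 (oddP hn p)
    omega
  have p17 : (p : ℕ) ≠ 17 := fun e => h17 (e ▸ dvdP p)
  obtain ⟨m, hm⟩ := dvdP p
  have a : ‖(m : ℚ_[p])‖ = 1 := nnat fun ⟨c, e⟩ => (Fact.out : (p : ℕ).Prime).prime.not_isUnit
    (hs p ⟨c, by rw [mul_assoc, ← e, ← hm]⟩)
  have hm' : (n : ℚ_[p]) = (p : ℕ) * m := by exact_mod_cast hm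
  have n0 : (n : ℚ_[p]) ≠ 0 := by exact_mod_cast hs.ne_zero
  have v (c : ℚ_[p]) (hc : ‖c‖ = 1) : (c * n).valuation = 1 := by
    rw [hm', mul_left_comm, val_p_mul (by rw [norm_mul, hc, a, one_mul])]
  have e12 : (0 - -n : ℚ_[p]) = 1 * n := by ring
  have e21 : (-n - 0 : ℚ_[p]) = -1 * n := by ring
  have e13 : (0 - -(17 * n) : ℚ_[p]) = 17 * n := by ring
  have e23 : (-n - -(17 * n) : ℚ_[p]) = 16 * n := by ring
  have A := ad_psi (gL p)
  have v13 := (congrArg Padic.valuation e13).trans (v _ (n17 p17))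
  have v23 := (congrArg Padic.valuation e23).trans (v _ (n16 p2))
  have k1 := loc_add S ((congrArg Padic.valuation e12).trans (v _ norm_one)) v13 v23 P
  have k2 := loc_add S.swap12 ((congrArg Padic.valuation e21).trans (v _ (by simp))) v23 v13 P
  have f : psi (gL p) (n : ℚ_[p]) = ∑ q, rr p q := A.expand_n hs
  have f16 : psi (gL p) (16 : ℚ_[p]) = 0 := by
    rw [show (16 : ℚ_[p]) = 4 ^ 2 by norm_num, A.sq (by norm_num)]
  rw [(hP _ _).1, (hP _ _).1, (hP _ _).2, vz_sqf s₁, vz_sqf s₂, e12, e21, e13, one_mul,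
    A _ _ (by norm_num) n0, A _ _ (by norm_num) n0, f] at k1
  rw [(hP _ _).2, (hP _ _).2, show S.swap12.swap12.hom ad_vz P = _ from (hP _ _).1, vz_sqf s₁,
    vz_sqf s₂, e12, e21, e23, one_mul, A _ _ (by norm_num) n0, A _ _ (by norm_num) n0, f,
    f16] at k2
  refine ⟨?_, ?_⟩
  · rw [k1, mu, nu]
    linear_combination ind (((p : ℕ) : ℤ) ∣ b₂) * two_z (∑ q, rr p q)
  · rw [k2, mu]
    linear_combination ind (((p : ℕ) : ℤ) ∣ b₁) * two_z (∑ q, rr p q)

end Conditions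

theorem sel_vec {K : Type} [Field K] [NumberField K] (q : QF K n) (hn : n % 4 = 3)
    (hJ : jacobiSym n 17 = -1)
    (hF : (n.primeFactors.filter fun p => p % 4 = 3).card = 1 ∨
      (n.primeFactors.filter fun p : ℕ => jacobiSym p 17 = -1).card = 1)
    (hcl : ∀ c : ClassGroup (𝓞 K), orderOf c ≠ 4) {b₁ b₂ : ℤ} (s₁ : Squarefree b₁)
    (s₂ : Squarefree b₂) (hpos : 0 < b₁ * b₂) (h : ∀ (p : ℕ) [Fact p.Prime],
      Sol ℚ_[p] b₁ b₂ (algebraMap ℚ ℚ_[p] (-n / 4)) (algebraMap ℚ ℚ_[p] (-17 * n / 4)))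
    (p : ℕ) (hp : p.Prime) (hpn : p ∣ n) :
    ((p : ℤ) ∣ b₂ ↔ 17 ∣ b₁) ∧ ((p : ℤ) ∣ b₁ ↔ b₁ < 0) := by
  have hs := q.hd
  have h17 : ¬ 17 ∣ n := by
    rintro ⟨c, rfl⟩
    rw [Nat.cast_mul, jacobiSym.mul_left, show jacobiSym ((17 : ℕ) : ℤ) 17 = 0 by norm_num] at hJ
    simp at hJ
  have c1 := cond1 hs s₁ s₂ h
  have c2 := cond2 hs hn s₁ s₂ h
  have x1 {F : Type} [Field F] [CharZero F] {χ : F → ZMod 2} (A : Ad χ) :=
    A.expandP h17 hs.ne_zero s₁ c1
  have x2 {F : Type} [Field F] [CharZero F] {χ : F → ZMod 2} (A : Ad χ) : χ b₂ =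
      χ (-1) * ind (b₁ < 0) + ∑ q : n.primeFactors, χ (q : ℕ) * ind (((q : ℕ) : ℤ) ∣ b₂) := by
    rw [A.expandP h17 hs.ne_zero s₂ fun q hq e => .inr (c2 q hq e),
      show ind (17 ∣ b₂) = 0 from if_neg fun e => h17 (c2 17 (by norm_num) e), mul_zero, add_zero,
      show (b₂ < 0) = (b₁ < 0) from propext
        ⟨fun e => by nlinarith, fun e => by nlinarith⟩]
  have t17 : psi (gL 17) (n : ℚ_[17]) = 1 := by
    rw [← Int.cast_natCast, psiL_int fun e => h17 (Int.natCast_dvd_natCast.1 e), hJ]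
    rfl
  have hν : ∑ p : n.primeFactors, nu p = 1 := by
    simp only [← psi17_P h17 hn]
    rw [← (ad_psi (gL 17)).expand_n hs, t17]
  have hμ : ∑ p : n.primeFactors, mu p = 1 := by
    simp only [← psi4_P hn]
    rw [← (ad_psi g4).expand_n hs, ← Int.cast_natCast, psi4_int (by omega), Int.cast_natCast,
      ZMod.χ₄_nat_three_mod_four hn]
    rfl
  have := lin_main (y := fun q : n.primeFactors => ind (((q : ℕ) : ℤ) ∣ b₂) + ind (17 ∣ b₁))
    (z := fun q : n.primeFactors => ind (((q : ℕ) : ℤ) ∣ b₁) + ind (b₁ < 0)) (rr_symm hn) hν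
    (redei q hn hcl) ?_ (fun p => ?_) (fun p => ?_) ?_ ?_
  · have P : p ∈ n.primeFactors := Nat.mem_primeFactors.2 ⟨hp, hpn, hs.ne_zero⟩
    exact ⟨ind_iff (congrFun this.1 ⟨p, P⟩), ind_iff (congrFun this.2 ⟨p, P⟩)⟩
  · refine hF.imp (fun e => ?_) fun e => ?_ <;> obtain ⟨p₀, e⟩ := Finset.card_eq_one.1 e <;>
      refine ⟨⟨p₀, (Finset.mem_filter.1 (e ▸ Finset.mem_singleton_self p₀)).1⟩, fun p h0 => ?_⟩
    · have := Nat.odd_iff.1 (oddP hn p)
      refine mu_one hn ?_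
      by_contra hc
      exact h0 (Subtype.ext (Finset.mem_singleton.1
        (e ▸ Finset.mem_filter.2 ⟨p.2, show (p : ℕ) % 4 = 3 by omega⟩)))
    · rw [nu_eq h17 hn, tz_zero]
      refine (jacobiSym.eq_one_or_neg_one ?_).resolve_right fun hc => h0 (Subtype.ext
        (Finset.mem_singleton.1 (e ▸ Finset.mem_filter.2 ⟨p.2, hc⟩)))
      rw [Int.gcd_natCast_natCast]
      exact (Nat.coprime_primes Fact.out (by norm_num)).2 fun e => h17 (e ▸ dvdP p)
  · have a := (condP hs hn h17 s₁ s₂ h p).2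
    rw [x2 (ad_psi (gL p))] at a
    simp only [mul_add, Finset.sum_add_distrib, ← Finset.sum_mul]
    simp only [rr, mu] at a ⊢
    linear_combination a + (ind (17 ∣ b₁) + ind (((p : ℕ) : ℤ) ∣ b₂)) *
      two_z (∑ q : n.primeFactors, psi (gL p) ((q : ℕ) : ℚ_[p])) -
      ind (b₁ < 0) * two_z (psi (gL p) (-1 : ℚ_[p]))
  · have a := (condP hs hn h17 s₁ s₂ h p).1
    rw [x1 (ad_psi (gL p))] at a
    simp only [mul_add, Finset.sum_add_distrib, ← Finset.sum_mul]
    simp only [rr, mu, nu] at a ⊢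
    linear_combination a + (ind (b₁ < 0) + ind (((p : ℕ) : ℤ) ∣ b₁)) *
      two_z (∑ q : n.primeFactors, psi (gL p) ((q : ℕ) : ℚ_[p])) -
      ind (b₁ < 0) * two_z (psi (gL p) (-1 : ℚ_[p])) -
      ind (17 ∣ b₁) * two_z (psi (gL p) (17 : ℚ_[p]))
  · have a := (cond2a hs hn s₁ s₂ h).1
    have a1 : psi g4 (-1 : ℚ_[2]) = 1 := by
      have := psi4_int (z := -1) (by omega)
      rw [ZMod.χ₄_int_three_mod_four (by omega)] at this
      exact_mod_cast this
    have a2 : psi g4 (17 : ℚ_[2]) = 0 := by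
      have := psi4_int (z := 17) (by omega)
      rw [ZMod.χ₄_int_one_mod_four (by omega)] at this
      exact_mod_cast this
    rw [x1 (ad_psi g4), a1, a2] at a
    simp only [psi4_P hn] at a
    simp only [mul_add, Finset.sum_add_distrib, ← Finset.sum_mul, hμ]
    linear_combination a
  · have a := cond17 hs h17 s₁ s₂ h
    have a1 : psi (gL 17) (-1 : ℚ_[17]) = 0 := by
      have := psiL_int (p := 17) (z := -1) (by omega)
      rw [show jacobiSym (-1) 17 = 1 by norm_num] at this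
      exact_mod_cast this
    rw [x2 (ad_psi (gL 17)), a1, t17] at a
    simp only [psi17_P h17 hn] at a
    simp only [mul_add, Finset.sum_add_distrib, ← Finset.sum_mul, hν]
    linear_combination a + two_z (ind (17 ∣ b₁))

/-- **The two-Selmer group consists of the images of the two-torsion points.** -/
theorem sel_triv {K : Type} [Field K] [NumberField K] (q : QF K n) (hn : n % 4 = 3)
    (hJ : jacobiSym n 17 = -1)
    (hF : (n.primeFactors.filter fun p => p % 4 = 3).card = 1 ∨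
      (n.primeFactors.filter fun p : ℕ => jacobiSym p 17 = -1).card = 1)
    (hcl : ∀ c : ClassGroup (𝓞 K), orderOf c ≠ 4) : SelTriv (-n / 4) (-17 * n / 4) := by
  intro b₁ b₂ s₁ s₂ hr h
  have hs := q.hd
  have n0 : (0 : ℝ) < n := by exact_mod_cast q.d_pos
  have h17 : ¬ 17 ∣ n := by
    rintro ⟨c, rfl⟩
    rw [Nat.cast_mul, jacobiSym.mul_left, show jacobiSym ((17 : ℕ) : ℤ) 17 = 0 by norm_num] at hJ
    simp at hJ
  have hpos := loc_real s₁.ne_zero s₂.ne_zero (by simp only [eq_ratCast]; push_cast; linarith)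
    (by simp only [eq_ratCast]; push_cast; linarith) hr
  have c1 := cond1 hs s₁ s₂ h
  have c2 := cond2 hs hn s₁ s₂ h
  have c3 := sel_vec q hn hJ hF hcl s₁ s₂ hpos h
  have p17 : Nat.Prime 17 := by norm_num
  have d17 {p : ℕ} (hp : p.Prime) : p ∣ 17 ↔ p = 17 := Nat.prime_dvd_prime_iff_eq hp p17
  have d1 {p : ℕ} (hp : p.Prime) : ¬ p ∣ 1 := hp.not_dvd_one
  by_cases a : 17 ∣ b₁
  · have e2 := natAbs_eq_of s₂ hs fun p hp => ⟨c2 p hp, fun e => (c3 p hp e).1.2 a⟩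
    right
    by_cases b : b₁ < 0
    · have e1 := natAbs_eq_of s₁ (m := 17 * n) ((Nat.squarefree_mul
        ((Nat.Prime.coprime_iff_not_dvd p17).2 h17)).2 ⟨p17.squarefree, hs⟩) fun p hp => by
          rw [hp.dvd_mul, d17 hp]
          exact ⟨c1 p hp, fun e => e.elim (by rintro rfl; exact a) fun e => (c3 p hp e).2.2 b⟩
      have b' : b₂ < 0 := by nlinarith
      obtain rfl : b₁ = -(17 * n) := by omega
      obtain rfl : b₂ = -n := by omega
      exact ⟨1 / 2, 2, 0, by push_cast; ring, by push_cast; ring, by ring⟩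
    · have e1 := natAbs_eq_of s₁ p17.squarefree fun p hp => by
        rw [d17 hp]
        exact ⟨fun e => (c1 p hp e).resolve_right fun e' => b ((c3 p hp e').2.1 e),
          by rintro rfl; exact a⟩
      obtain rfl : b₁ = 17 := by omega
      obtain rfl : b₂ = n := by omega
      exact ⟨0, 1 / 2, 1 / 2, by push_cast; ring, by push_cast; ring, by ring⟩
  · have e2 := natAbs_eq_of s₂ squarefree_one fun p hp =>
      iff_of_false (fun e => a ((c3 p hp (c2 p hp e)).1.1 e)) (d1 hp)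
    have c4 (p : ℕ) (hp : p.Prime) (e : (p : ℤ) ∣ b₁) : p ∣ n :=
      (c1 p hp e).resolve_left (by rintro rfl; exact a e)
    by_cases b : b₁ < 0
    · have e1 := natAbs_eq_of s₁ hs fun p hp => ⟨c4 p hp, fun e => (c3 p hp e).2.2 b⟩
      have b' : b₂ < 0 := by nlinarith
      obtain rfl : b₁ = -n := by omega
      obtain rfl : b₂ = -1 := by omega
      exact .inr ⟨1 / 2, 0, 2, by push_cast; ring, by push_cast; ring, by ring⟩
    · have e1 := natAbs_eq_of s₁ squarefree_one fun p hp =>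
        iff_of_false (fun e => b ((c3 p hp (c4 p hp e)).2.1 e)) (d1 hp)
      obtain rfl : b₁ = 1 := by omega
      exact .inl ⟨rfl, by omega⟩

end Vale.Agent.P014F
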