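import Vale.Agent.P014F.Gal

/-!
# Tamagawa numbers of curves with split two-torsion
-/

namespace Vale.Agent.P014F

open WeierstrassCurve Vale.Agent.P014
open scoped Classical

section Kummer

variable {F : Type*} [Field F] {W : WeierstrassCurve F} {r₁ r₂ r₃ : F}

/-- the Kummer map attached to the first root -/
noncomputable def al (W : WeierstrassCurve F) (r₁ r₂ r₃ : F) : W.toAffine.Point → F
  | 0 => 1
  | .some x _ _ => if x = r₁ then (r₁ - r₂) * (r₁ - r₃) else x - r₁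

theorem Spl.al_ne (S : Spl W r₁ r₂ r₃) (P : W.toAffine.Point) : al W r₁ r₂ r₃ P ≠ 0 := by
  rcases P with _ | ⟨x, y, h⟩
  · exact one_ne_zero
  · change ite _ _ _ ≠ _
    split_ifs with hx
    · exact mul_ne_zero (sub_ne_zero.2 S.n12) (sub_ne_zero.2 S.n13)
    · exact sub_ne_zero.2 hx

variable [CharZero F]

theorem Spl.al_pt (S : Spl W r₁ r₂ r₃) {x η : F} (h : η ^ 2 = (x - r₁) * (x - r₂) * (x - r₃)) :
    al W r₁ r₂ r₃ (pt W x η) = if x = r₁ then (r₁ - r₂) * (r₁ - r₃) else x - r₁ := by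
  rw [S.pt_eq h]
  rfl

theorem Spl.al_mul (S : Spl W r₁ r₂ r₃) (P Q : W.toAffine.Point) :
    ∃ c, al W r₁ r₂ r₃ P * al W r₁ r₂ r₃ Q * al W r₁ r₂ r₃ (P + Q) = c ^ 2 := by
  rcases S.cases P with rfl | ⟨x₁, η₁, h₁, rfl⟩
  · exact ⟨al W r₁ r₂ r₃ Q, by rw [zero_add, show al W r₁ r₂ r₃ 0 = 1 from rfl]; ring⟩
  rcases S.cases Q with rfl | ⟨x₂, η₂, h₂, rfl⟩
  · exact ⟨al W r₁ r₂ r₃ (pt W x₁ η₁), by
      rw [add_zero, show al W r₁ r₂ r₃ 0 = 1 from rfl]; ring⟩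
  rcases exists_slope h₁ h₂ with ⟨rfl, rfl⟩ | ⟨m, hm⟩
  · exact ⟨al W r₁ r₂ r₃ (pt W x₁ η₁), by
      rw [S.add_neg_pt h₁, show al W r₁ r₂ r₃ 0 = 1 from rfl, S.al_pt h₁, S.al_pt h₂]; ring⟩
  obtain ⟨x₃, hx⟩ : ∃ x₃, x₃ = m ^ 2 + (r₁ + r₂ + r₃) - x₁ - x₂ := ⟨_, rfl⟩
  obtain ⟨h₃, e⟩ := S.add_pt h₁ h₂ hm hx rfl
  rw [e, S.al_pt h₁, S.al_pt h₂, S.al_pt h₃]
  have ha : (x₁ - r₁) * (x₁ - r₂) + (x₁ - r₁) * (x₁ - r₃) + (x₁ - r₂) * (x₁ - r₃) - 2 * m * η₁ =
      (x₁ - x₂) * (x₁ - x₃) := by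
    rcases hm with ⟨hne, hm⟩ | ⟨rfl, rfl, -, hm⟩
    · refine mul_left_cancel₀ (sub_ne_zero.2 hne) ?_
      rw [hx]
      linear_combination h₂ - h₁ - (η₂ + m * (x₂ - x₁) + η₁) * hm
    · linear_combination -hm
  have i1 : (x₁ - r₁) * (x₂ - r₁) * (x₃ - r₁) = (η₁ - m * (x₁ - r₁)) ^ 2 := by
    rw [hx] at ha ⊢
    linear_combination -(x₁ - r₁) * ha - h₁
  have i2 : (x₁ - r₁) * (x₂ - r₁) + (x₁ - r₁) * (x₃ - r₁) + (x₂ - r₁) * (x₃ - r₁) =
      (r₁ - r₂) * (r₁ - r₃) - 2 * m * (η₁ - m * (x₁ - r₁)) := by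
    rw [hx] at ha ⊢
    linear_combination -ha
  have c0 := mul_ne_zero (sub_ne_zero.2 S.n12) (sub_ne_zero.2 S.n13)
  generalize η₁ - m * (x₁ - r₁) = c at i1 i2
  generalize (r₁ - r₂) * (r₁ - r₃) = d at i2 c0
  have z (h : (x₁ - r₁) * (x₂ - r₁) * (x₃ - r₁) = 0) : c = 0 :=
    pow_eq_zero_iff two_ne_zero |>.1 (i1 ▸ h)
  by_cases a₁ : x₁ = r₁
  · have := z (by rw [a₁]; ring)
    rw [a₁, this] at i2
    have e : (x₂ - r₁) * (x₃ - r₁) = d := by linear_combination i2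
    rw [← e] at c0
    rw [if_pos a₁, if_neg (sub_ne_zero.1 (left_ne_zero_of_mul c0)),
      if_neg (sub_ne_zero.1 (right_ne_zero_of_mul c0))]
    exact ⟨d, by linear_combination d * e⟩
  by_cases a₂ : x₂ = r₁
  · have := z (by rw [a₂]; ring)
    rw [a₂, this] at i2
    have e : (x₁ - r₁) * (x₃ - r₁) = d := by linear_combination i2
    rw [← e] at c0
    rw [if_neg a₁, if_pos a₂, if_neg (sub_ne_zero.1 (right_ne_zero_of_mul c0))]
    exact ⟨d, by linear_combination d * e⟩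
  by_cases a₃ : x₃ = r₁
  · have := z (by rw [a₃]; ring)
    rw [a₃, this] at i2
    have e : (x₁ - r₁) * (x₂ - r₁) = d := by linear_combination i2
    rw [if_neg a₁, if_neg a₂, if_pos a₃]
    exact ⟨d, by linear_combination d * e⟩
  · rw [if_neg a₁, if_neg a₂, if_neg a₃]
    exact ⟨c, i1⟩

end Kummer

variable {p : ℕ} [Fact p.Prime]

section Local

variable {W : WeierstrassCurve ℚ_[p]} {r₁ r₂ r₃ : ℚ_[p]}

/-- the parity of the valuation of the Kummer map -/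
noncomputable def Spl.par (S : Spl W r₁ r₂ r₃) : W.toAffine.Point →+ ZMod 2 :=
  AddMonoidHom.mk' (fun P => ((al W r₁ r₂ r₃ P).valuation : ZMod 2)) fun P Q => by
    obtain ⟨c, h⟩ := S.al_mul P Q
    have := congrArg (fun x : ℚ_[p] => (x.valuation : ZMod 2)) h
    simp only [Padic.valuation_mul (mul_ne_zero (S.al_ne P) (S.al_ne Q)) (S.al_ne _),
      Padic.valuation_mul (S.al_ne P) (S.al_ne Q), Padic.valuation_pow] at this
    push_cast at this
    have h2 : (2 : ZMod 2) = 0 := rfl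
    linear_combination this + (c.valuation - (al W r₁ r₂ r₃ P).valuation -
      (al W r₁ r₂ r₃ Q).valuation : ZMod 2) * h2

theorem Spl.par_pt (S : Spl W r₁ r₂ r₃) {x η : ℚ_[p]}
    (h : η ^ 2 = (x - r₁) * (x - r₂) * (x - r₃)) : S.par (pt W x η) = 0 ↔
      2 ∣ (if x = r₁ then (r₁ - r₂) * (r₁ - r₃) else x - r₁).valuation := by
  rw [← S.al_pt h]
  exact ZMod.intCast_zmod_eq_zero_iff_dvd _ 2

theorem val_congr {a b : ℚ_[p]} (ha : a ≠ 0) (h : ‖a‖ = ‖b‖) : a.valuation = b.valuation := by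
  have hb : b ≠ 0 := by
    rintro rfl
    exact ha (by simpa using h)
  rw [Padic.norm_eq_zpow_neg_valuation ha, Padic.norm_eq_zpow_neg_valuation hb] at h
  have hp : (1 : ℝ) < p := by exact_mod_cast (Fact.out : p.Prime).one_lt
  exact neg_injective (zpow_right_injective₀ (by linarith) hp.ne' h)

theorem val_pos {a : ℚ_[p]} (ha : a ≠ 0) (h : ‖a‖ < 1) : 0 < a.valuation := by
  rw [Padic.norm_eq_zpow_neg_valuation ha] at h
  have hp : (1 : ℝ) < p := by exact_mod_cast (Fact.out : p.Prime).one_lt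
  have := (zpow_lt_one_iff_right₀ hp).1 h
  omega

theorem norm_lt_of_val {a : ℚ_[p]} (h : 0 < a.valuation) : ‖a‖ < 1 := by
  have ha : a ≠ 0 := by
    rintro rfl
    simp at h
  rw [Padic.norm_eq_zpow_neg_valuation ha]
  have hp : (1 : ℝ) < p := by exact_mod_cast (Fact.out : p.Prime).one_lt
  exact (zpow_lt_one_iff_right₀ hp).2 (by omega)

theorem val_unit {a : ℚ_[p]} (h : ‖a‖ = 1) : a.valuation = 0 := by
  rw [val_congr (b := 1) (by rintro rfl; simp at h) (by simpa using h), Padic.valuation_one]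

theorem val_neg (a : ℚ_[p]) : (-a).valuation = a.valuation := by
  by_cases h : a = 0
  · rw [h, neg_zero]
  · exact val_congr (neg_ne_zero.2 h) (norm_neg a)

theorem nlt_add {a b : ℚ_[p]} (ha : ‖a‖ < 1) (hb : ‖b‖ < 1) : ‖a + b‖ < 1 :=
  (Padic.nonarchimedean a b).trans_lt (max_lt ha hb)

theorem nlt_sub {a b : ℚ_[p]} (ha : ‖a‖ < 1) (hb : ‖b‖ < 1) : ‖a - b‖ < 1 := by
  rw [sub_eq_add_neg]
  exact nlt_add ha (by rwa [norm_neg])

theorem nle_add {a b : ℚ_[p]} (ha : ‖a‖ ≤ 1) (hb : ‖b‖ ≤ 1) : ‖a + b‖ ≤ 1 :=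
  (Padic.nonarchimedean a b).trans (max_le ha hb)

theorem nlt_mul {a b : ℚ_[p]} (ha : ‖a‖ ≤ 1) (hb : ‖b‖ < 1) : ‖a * b‖ < 1 := by
  rw [norm_mul]
  exact mul_lt_one_of_nonneg_of_lt_one_right ha (norm_nonneg _) hb

theorem nlt_mul' {a b : ℚ_[p]} (ha : ‖a‖ < 1) (hb : ‖b‖ ≤ 1) : ‖a * b‖ < 1 := by
  rw [mul_comm]
  exact nlt_mul hb ha

theorem norm_add_left {a b : ℚ_[p]} (h : ‖b‖ < ‖a‖) : ‖a + b‖ = ‖a‖ := by
  rw [Padic.add_eq_max_of_ne h.ne', max_eq_left h.le]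

theorem norm_sub_left {a b : ℚ_[p]} (h : ‖b‖ < ‖a‖) : ‖a - b‖ = ‖a‖ := by
  rw [sub_eq_add_neg, norm_add_left (by rwa [norm_neg])]

theorem nlt_of_sq {a : ℚ_[p]} (h : ‖a ^ 2‖ < 1) : ‖a‖ < 1 := by
  rw [norm_pow] at h
  exact (pow_lt_one_iff_of_nonneg (norm_nonneg _) two_ne_zero).1 h

theorem none_of_sq {a : ℚ_[p]} (h : ‖a ^ 2‖ = 1) : ‖a‖ = 1 := by
  rw [norm_pow] at h
  exact (pow_eq_one_iff_of_nonneg (norm_nonneg _) two_ne_zero).1 h

/-- three factors of the same size whose product is a square have even valuation -/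
theorem even_of_three {a b c η : ℚ_[p]} (ha : a ≠ 0) (h : η ^ 2 = a * b * c) (hb : ‖b‖ = ‖a‖)
    (hc : ‖c‖ = ‖a‖) : 2 ∣ a.valuation := by
  have b0 : b ≠ 0 := fun e => ha (by rw [e, norm_zero] at hb; exact norm_eq_zero.1 hb.symm)
  have c0 : c ≠ 0 := fun e => ha (by rw [e, norm_zero] at hc; exact norm_eq_zero.1 hc.symm)
  have := congrArg Padic.valuation h
  rw [Padic.valuation_pow, Padic.valuation_mul (mul_ne_zero ha b0) c0, Padic.valuation_mul ha b0,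
    val_congr b0 hb, val_congr c0 hc] at this
  omega

end Local

variable {E : WeierstrassCurve ℚ} {r₁ r₂ r₃ : ℚ_[p]}

theorem Spl.ns_pt (S : Spl (E⁄ℚ_[p]) r₁ r₂ r₃) {x η : ℚ_[p]}
    (h : η ^ 2 = (x - r₁) * (x - r₂) * (x - r₃)) :
    NonsingularReduction E p (pt (E⁄ℚ_[p]) x η) ↔ 1 < ‖x‖ ∨
      1 ≤ ‖(E.a₁ : ℚ_[p]) * η -
        ((x - r₁) * (x - r₂) + (x - r₁) * (x - r₃) + (x - r₂) * (x - r₃))‖ ∨ 1 ≤ ‖2 * η‖ := by
  rw [S.pt_eq h]
  have h2 : (E.a₁ : ℚ_[p]) ^ 2 + 4 * E.a₂ = _ := S.h2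
  have h4 : 2 * (E.a₄ : ℚ_[p]) + E.a₁ * E.a₃ = _ := S.h4
  have e : yc (E⁄ℚ_[p]) x η = η - ((E.a₁ : ℚ_[p]) * x + E.a₃) / 2 := rfl
  change _ ∨ 1 ≤ ‖_ * yc _ x η - _‖ ∨ 1 ≤ ‖2 * yc _ x η + _ + _‖ ↔ _
  rw [e]
  congr! 4
  · linear_combination -x / 2 * h2 - 1 / 2 * h4
  · ring

theorem tam_of_hom {G : Type*} [AddCommGroup G] (φ : (E⁄ℚ_[p]).toAffine.Point →+ G)
    (hs : Function.Surjective φ) (h : ∀ P, NonsingularReduction E p P ↔ φ P = 0) :
    tamagawa E p = Nat.card G := by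
  have : {P | NonsingularReduction E p P} = (φ.ker : Set _) := Set.ext h
  rw [tamagawa, this, AddSubgroup.closure_eq, AddSubgroup.index_ker,
    AddMonoidHom.range_eq_top.2 hs, AddSubgroup.card_top]

/-- multiplicative reduction of type `I₂` -/
theorem tam_two (S : Spl (E⁄ℚ_[p]) r₁ r₂ r₃) (h2 : ‖(2 : ℚ_[p])‖ = 1) (ha : ‖(E.a₁ : ℚ_[p])‖ ≤ 1)
    (h1 : ‖r₁‖ ≤ 1) (h12 : ‖r₁ - r₂‖ = 1) (h13 : (r₁ - r₃).valuation = 1) :
    tamagawa E p = 2 := by
  have n13 : ‖r₁ - r₃‖ < 1 := norm_lt_of_val (by omega)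
  have t1 : ¬ 2 ∣ ((r₁ - r₂) * (r₁ - r₃)).valuation := by
    rw [Padic.valuation_mul (sub_ne_zero.2 S.n12) (sub_ne_zero.2 S.n13), val_unit h12, h13]
    norm_num
  refine (tam_of_hom S.par (fun c => ?_) fun P => ?_).trans (by simp)
  · have : S.par (pt _ r₁ 0) ≠ 0 := by
      rw [Ne, S.par_pt (by ring), if_pos rfl]
      exact t1
    have k : ∀ c d : ZMod 2, d ≠ 0 → c = 0 ∨ c = d := by decide
    rcases k c _ this with rfl | rfl
    exacts [⟨0, map_zero _⟩, ⟨_, rfl⟩]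
  rcases S.cases P with rfl | ⟨x, η, h, rfl⟩
  · exact iff_of_true trivial (map_zero _)
  rw [S.ns_pt h, S.par_pt h]
  have e2 : x - r₂ = x - r₁ + (r₁ - r₂) := by ring
  have e3 : x - r₃ = x - r₁ + (r₁ - r₃) := by ring
  have e0 : x = x - r₁ + r₁ := by ring
  rcases lt_trichotomy ‖x - r₁‖ 1 with hx | hx | hx
  · have a2 : ‖x - r₂‖ = 1 := by rw [e2, add_comm, norm_add_left (h12 ▸ hx), h12]
    have a3 : ‖x - r₃‖ < 1 := e3 ▸ nlt_add hx n13
    have aη : ‖η‖ < 1 := nlt_of_sq (h ▸ nlt_mul (nlt_mul' hx a2.le).le a3)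
    refine iff_of_false ?_ ?_
    · push Not
      exact ⟨e0 ▸ nle_add hx.le h1, nlt_sub (nlt_mul ha aη) (nlt_add (nlt_add (nlt_mul' hx a2.le)
        (nlt_mul' hx a3.le)) (nlt_mul a2.le a3)), nlt_mul h2.le aη⟩
    · split_ifs with hr
      · exact t1
      · intro hd
        have X0 := sub_ne_zero.2 hr
        have v1 := val_pos X0 hx
        have a2' : x - r₂ ≠ 0 := fun e => by simp [e] at a2
        have v3 : ‖x - r₁‖ < ‖r₁ - r₃‖ := by
          rw [Padic.norm_eq_zpow_neg_valuation X0,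
            Padic.norm_eq_zpow_neg_valuation (sub_ne_zero.2 S.n13)]
          exact zpow_lt_zpow_right₀ (by exact_mod_cast (Fact.out : p.Prime).one_lt) (by omega)
        have a3' : ‖r₁ - r₃‖ = ‖x - r₃‖ := by rw [e3, add_comm, norm_add_left v3]
        have v4 := val_congr (sub_ne_zero.2 S.n13) a3'
        have a3'' : x - r₃ ≠ 0 := fun e => by
          rw [e, Padic.valuation_zero] at v4
          omega
        have := congrArg Padic.valuation h
        rw [Padic.valuation_pow, Padic.valuation_mul (mul_ne_zero X0 a2') a3'',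
          Padic.valuation_mul X0 a2', val_unit a2] at this
        omega
  · have hr : x ≠ r₁ := fun e => by simp [e] at hx
    have a3 : ‖x - r₃‖ = 1 := by rw [e3, norm_add_left (hx ▸ n13), hx]
    rw [if_neg hr, val_unit hx]
    refine iff_of_true (.inr ?_) (dvd_zero _)
    rcases (show ‖x - r₂‖ ≤ 1 from e2 ▸ nle_add hx.le h12.le).lt_or_eq with a2 | a2
    · have aη : ‖η‖ < 1 := nlt_of_sq (h ▸ nlt_mul' (nlt_mul hx.le a2) a3.le)
      left
      have : (E.a₁ : ℚ_[p]) * η -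
          ((x - r₁) * (x - r₂) + (x - r₁) * (x - r₃) + (x - r₂) * (x - r₃)) =
          -((x - r₁) * (x - r₃)) + (E.a₁ * η - (x - r₁) * (x - r₂) - (x - r₂) * (x - r₃)) := by
        ring
      have b : ‖-((x - r₁) * (x - r₃))‖ = 1 := by rw [norm_neg, norm_mul, hx, a3, one_mul]
      rw [this, norm_add_left, b]
      rw [b]
      exact nlt_sub (nlt_sub (nlt_mul ha aη) (nlt_mul hx.le a2)) (nlt_mul' a2 a3.le)
    · right
      rw [norm_mul, h2, none_of_sq (by rw [h, norm_mul, norm_mul, hx, a2, a3]; simp), one_mul]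
  · have hr : x ≠ r₁ := fun e => by simp [e] at hx; linarith
    rw [if_neg hr]
    refine iff_of_true (.inl ?_) (even_of_three (sub_ne_zero.2 hr) h ?_ ?_)
    · rwa [e0, norm_add_left (h1.trans_lt hx)]
    · rw [e2, norm_add_left (h12 ▸ hx)]
    · rw [e3, norm_add_left (n13.trans hx)]

/-- additive reduction of type `I₀*` with split cubic -/
theorem tam_four (S : Spl (E⁄ℚ_[p]) r₁ r₂ r₃) (h2 : ‖(2 : ℚ_[p])‖ = 1)
    (ha : ‖(E.a₁ : ℚ_[p])‖ ≤ 1) (h1 : ‖r₁‖ < 1) (h12 : (r₁ - r₂).valuation = 1)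
    (h13 : (r₁ - r₃).valuation = 1) (h23 : (r₂ - r₃).valuation = 1) : tamagawa E p = 4 := by
  have n12 : ‖r₁ - r₂‖ < 1 := norm_lt_of_val (by omega)
  have n13 : ‖r₁ - r₃‖ < 1 := norm_lt_of_val (by omega)
  have h21 : (r₂ - r₁).valuation = 1 := by rw [← neg_sub, val_neg, h12]
  have S' := S.swap12
  have k0 : ∀ d : ZMod 2, d ≠ 0 → d = 1 := by decide
  refine (tam_of_hom (S.par.prod S'.par) (fun c => ?_) fun P => ?_).trans (by simp)
  · have a1 : (S.par.prod S'.par) (pt _ r₁ 0) = (0, 1) := by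
      refine Prod.ext ((S.par_pt (by ring)).2 ?_) (k0 _ fun h => ?_)
      · rw [if_pos rfl, Padic.valuation_mul (sub_ne_zero.2 S.n12) (sub_ne_zero.2 S.n13), h12, h13]
        norm_num
      · have := (S'.par_pt (x := r₁) (η := 0) (by ring)).1 h
        rw [if_neg S.n12, h12] at this
        omega
    have a2 : (S.par.prod S'.par) (pt _ r₂ 0) = (1, 0) := by
      refine Prod.ext (k0 _ fun h => ?_) ((S'.par_pt (by ring)).2 ?_)
      · have := (S.par_pt (x := r₂) (η := 0) (by ring)).1 h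
        rw [if_neg S.n12.symm, h21] at this
        omega
      · rw [if_pos rfl, Padic.valuation_mul (sub_ne_zero.2 S'.n12) (sub_ne_zero.2 S'.n13), h21,
          h23]
        norm_num
    have k : ∀ c : ZMod 2 × ZMod 2, c = 0 ∨ c = (0, 1) ∨ c = (1, 0) ∨ c = (0, 1) + (1, 0) := by
      decide
    rcases k c with rfl | rfl | rfl | rfl
    exacts [⟨0, map_zero _⟩, ⟨_, a1⟩, ⟨_, a2⟩, ⟨pt _ r₁ 0 + pt _ r₂ 0, by rw [map_add, a1, a2]⟩]
  rcases S.cases P with rfl | ⟨x, η, h, rfl⟩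
  · exact iff_of_true trivial (map_zero _)
  have h' : η ^ 2 = (x - r₂) * (x - r₁) * (x - r₃) := by rw [h]; ring
  rw [S.ns_pt h, AddMonoidHom.prod_apply, Prod.mk_eq_zero, S.par_pt h, S'.par_pt h']
  have e2 : x - r₂ = x - r₁ + (r₁ - r₂) := by ring
  have e3 : x - r₃ = x - r₁ + (r₁ - r₃) := by ring
  have e0 : x = x - r₁ + r₁ := by ring
  rcases lt_or_ge ‖x - r₁‖ 1 with hx | hx
  · have a2 : ‖x - r₂‖ < 1 := e2 ▸ nlt_add hx n12
    have a3 : ‖x - r₃‖ < 1 := e3 ▸ nlt_add hx n13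
    have aη : ‖η‖ < 1 := nlt_of_sq (h ▸ nlt_mul (nlt_mul' hx a2.le).le a3)
    refine iff_of_false ?_ ?_
    · push Not
      exact ⟨e0 ▸ nle_add hx.le h1.le, nlt_sub (nlt_mul ha aη) (nlt_add (nlt_add
        (nlt_mul' hx a2.le) (nlt_mul' hx a3.le)) (nlt_mul a2.le a3)), nlt_mul h2.le aη⟩
    · rintro ⟨d1, d2⟩
      by_cases b1 : x = r₁
      · rw [b1, if_neg S.n12, h12] at d2
        omega
      by_cases b2 : x = r₂
      · rw [b2, if_neg S.n12.symm, h21] at d1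
        omega
      rw [if_neg b1] at d1
      rw [if_neg b2] at d2
      have v1 := val_pos (sub_ne_zero.2 b1) hx
      have v2 := val_pos (sub_ne_zero.2 b2) a2
      have e : -(x - r₁) + (x - r₂) = r₁ - r₂ := by ring
      have := Padic.le_valuation_add (x := -(x - r₁)) (y := x - r₂)
        (by rw [e]; exact sub_ne_zero.2 S.n12)
      rw [e, val_neg, h12, min_le_iff] at this
      omega
  · have a2 : ‖x - r₂‖ = ‖x - r₁‖ := by rw [e2, norm_add_left (n12.trans_le hx)]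
    have a3 : ‖x - r₃‖ = ‖x - r₁‖ := by rw [e3, norm_add_left (n13.trans_le hx)]
    have b1 : x ≠ r₁ := fun e => by simp [e] at hx; linarith
    have b2 : x ≠ r₂ := fun e => by
      rw [← a2, e] at hx
      simp at hx
      linarith
    rw [if_neg b1, if_neg b2]
    refine iff_of_true ?_ ⟨even_of_three (sub_ne_zero.2 b1) h a2 a3,
      even_of_three (sub_ne_zero.2 b2) h' a2.symm (a3.trans a2.symm)⟩
    rcases hx.lt_or_eq with hx | hx
    · left
      rwa [e0, norm_add_left (h1.trans hx)]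
    · right
      right
      rw [norm_mul, h2, none_of_sq (by rw [h, norm_mul, norm_mul, a2, a3, ← hx]; simp), one_mul]

/-- good reduction -/
theorem tam_one (W : WeierstrassCurve ℤ) (h : ¬ (p : ℤ) ∣ W.Δ) :
    tamagawa (W.map (Int.castRingHom ℚ)) p = 1 := by
  rw [tamagawa, AddSubgroup.index_eq_one, eq_top_iff]
  intro P _
  refine AddSubgroup.subset_closure ?_
  rcases P with _ | ⟨x, y, hxy⟩
  · trivial
  change _ ∨ _ ∨ _
  by_contra hc
  push Not at hc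
  obtain ⟨hx, h1, h2⟩ := hc
  have e : y ^ 2 + W.a₁ * x * y + W.a₃ * y = x ^ 3 + W.a₂ * x ^ 2 + W.a₄ * x + W.a₆ := by
    simpa using (Affine.equation_iff _ _).1 hxy.1
  simp only [map_a₁, map_a₂, map_a₃, map_a₄, eq_intCast, Rat.cast_intCast] at h1 h2
  have i (z : ℤ) := Padic.norm_int_le_one (p := p) z
  have m {a b : ℚ_[p]} (ha : ‖a‖ ≤ 1) (hb : ‖b‖ ≤ 1) : ‖a * b‖ ≤ 1 := by
    rw [norm_mul]
    exact mul_le_one₀ ha (norm_nonneg _) hb
  have hy : ‖y‖ ≤ 1 := by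
    by_contra hy
    push Not at hy
    have e' : y * (y + (W.a₁ * x + W.a₃)) = x * x * x + W.a₂ * (x * x) + W.a₄ * x + W.a₆ := by
      linear_combination e
    have := nle_add (nle_add (nle_add (m (m hx hx) hx) (m (i W.a₂) (m hx hx))) (m (i W.a₄) hx))
      (i W.a₆)
    rw [← e', norm_mul, norm_add_left ((nle_add (m (i W.a₁) hx) (i W.a₃)).trans_lt hy)] at this
    nlinarith
  obtain ⟨x, rfl⟩ : ∃ x' : ℤ_[p], (x' : ℚ_[p]) = x := ⟨⟨x, hx⟩, rfl⟩
  obtain ⟨y, rfl⟩ : ∃ y' : ℤ_[p], (y' : ℚ_[p]) = y := ⟨⟨y, hy⟩, rfl⟩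
  let f := PadicInt.toZMod (p := p)
  have z (a : ℤ_[p]) (ha : ‖(a : ℚ_[p])‖ < 1) : f a = 0 := by
    rw [← RingHom.mem_ker, PadicInt.ker_toZMod, IsLocalRing.mem_maximalIdeal,
      PadicInt.mem_nonunits]
    exact ha
  have e1 : y ^ 2 + W.a₁ * x * y + W.a₃ * y = x ^ 3 + W.a₂ * x ^ 2 + W.a₄ * x + W.a₆ :=
    Subtype.ext (by push_cast; exact e)
  have e2 : (W.map (Int.castRingHom (ZMod p))).toAffine.Equation (f x) (f y) := by
    rw [Affine.equation_iff]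
    simpa using congrArg f e1
  rw [Affine.equation_iff_nonsingular_of_Δ_ne_zero (by
    rwa [map_Δ, eq_intCast, Ne, ZMod.intCast_zmod_eq_zero_iff_dvd]), Affine.nonsingular_iff'] at e2
  rcases e2.2 with e3 | e3
  · refine e3 ?_
    have := z (W.a₁ * y - (3 * x ^ 2 + 2 * W.a₂ * x + W.a₄)) (by push_cast; exact h1)
    simpa only [map_sub, map_add, map_mul, map_pow, map_ofNat, map_intCast] using! this
  · refine e3 ?_
    have := z (2 * y + W.a₁ * x + W.a₃) (by push_cast; exact h2)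
    simpa only [map_sub, map_add, map_mul, map_pow, map_ofNat, map_intCast] using! this

end Vale.Agent.P014F
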